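-- KEEP
import Mathlib

/-!
# ROW 252 (Kakeya in R^4), BOX 6a: THE POLYNOMIAL KIT, DEFINITIONS      (architect helper78; prefix `rmz_`, `rmz`)

PAPER-FREE.   Everything is expressed through COEFFICIENT NORMS of NORMALISED polynomials:
* `rmzN p   = ∑ |c_k|`          one variable;        `rmzNm P = ∑ |c_m|`     several variables
* `rmzAff a b p`, `rmzAffm a b P`   the polynomial in the normalised variable `s`, `x = a + (b - a) s`  (`[a,b] ↔ [0,1]`, coordinatewise)
* `rmzC d θ`, `rmzCm n d θ`     the constants of the Remez inequalities  (`≤ C(n,d) θ^(-n d)` : `rmz_Cm_le`)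
A bound of the coefficient norm of the normalised polynomial bounds the values and ALL derivatives on every real or complex enlargement of the box.
-/

set_option autoImplicit false

namespace Claimed.Agent.R252

open Polynomial

/-- the coefficient norm of a polynomial in one variable -/
noncomputable def rmzN (p : ℝ[X]) : ℝ := ∑ k ∈ p.support, |p.coeff k|

/-- the coefficient norm of a polynomial in several variables -/
noncomputable def rmzNm {σ : Type} (P : MvPolynomial σ ℝ) : ℝ := ∑ m ∈ P.support, |P.coeff m|

/-- the polynomial in the normalised variable: `(rmzAff a b p)(s) = p (a + (b - a) s)` -/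
noncomputable def rmzAff (a b : ℝ) (p : ℝ[X]) : ℝ[X] := p.comp (C a + C (b - a) * X)

/-- the polynomial in the normalised variables: `(rmzAffm a b P)(s) = P (a + (b - a) s)` coordinatewise -/
noncomputable def rmzAffm {σ : Type} (a b : σ → ℝ) (P : MvPolynomial σ ℝ) : MvPolynomial σ ℝ :=
  MvPolynomial.bind₁ (fun i => MvPolynomial.C (a i) + MvPolynomial.C (b i - a i) * MvPolynomial.X i) P

/-- the constant of the Remez inequality in one variable -/
noncomputable def rmzC (d : ℕ) (θ : ℝ) : ℝ := ((d : ℝ) + 1) * (4 * ((d : ℝ) + 1) / θ) ^ d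

/-- the constant of the Remez inequality in `n` variables -/
noncomputable def rmzCm : ℕ → ℕ → ℝ → ℝ
  | 0, _, _ => 1
  | n + 1, d, θ => ((d : ℝ) + 1) * rmzC d (θ / 2) * rmzCm n d (θ / 2)

theorem rmz_defs_eqns_cite : True := by
  have := @rmzN.eq_1
  have := @rmzNm.eq_1
  have := @rmzAff.eq_1
  have := @rmzAffm.eq_1
  have := @rmzC.eq_1
  have := @rmzCm.eq_1
  have := @rmzCm.eq_2
  trivial

end Claimed.Agent.R252
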