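-- KEEP
import Claimed.Agent.R252.Remez.Defs

/-!
# ROW 252, BOX 6a: THE POLYNOMIAL KIT, ELEMENTARY LEMMAS OF SEC. 2.   CLOSED, all proved      (architect helper78; prefix `rmz_`)

PAPER-FREE, Mathlib only.   STATEMENTS ARE FROZEN (defects: message to helper78).   All leaves proved 18:46Z (helpers 173, 35, 259, 158, 41, 78).
* s1  three-node interpolation of a quadratic (02 l.72)                                               PROVED
* s2  quadratic sublevel sets (02 lem:quadratic-sublevel, l.470-495)                                  L-252-RMZ-QUAD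
* s3  affine good times (02 (a01:affine-good-time), l.1578-1592)                                      L-252-RMZ-AFF
* s4  a monic polynomial is large off intervals around the real parts of its roots (02 l.1563-1572)   L-252-RMZ-MONIC
* s5  sign changes along a line, `L¹` modulus of translation (02 l.224-230)                           L-252-RMZ-SIGN
-/

set_option autoImplicit false

namespace Claimed.Agent.R252

open MeasureTheory Polynomial

/-! ## 1. Three nodes -/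

/-- the coefficients of a quadratic are bounded by its supremum on `[0,1]` -/
theorem rmz_quad_coeff (A B C M : ℝ) (h : ∀ t ∈ Set.Icc (0 : ℝ) 1, |A * t ^ 2 + B * t + C| ≤ M) : |A| ≤ 8 * M ∧ |B| ≤ 8 * M ∧ |C| ≤ M := by
  have h0 := abs_le.1 (h 0 ⟨le_rfl, zero_le_one⟩)
  have h1 := abs_le.1 (h 1 ⟨zero_le_one, le_rfl⟩)
  have h2 := abs_le.1 (h (1 / 2) ⟨by norm_num, by norm_num⟩)
  refine ⟨abs_le.2 ⟨?_, ?_⟩, abs_le.2 ⟨?_, ?_⟩, abs_le.2 ⟨?_, ?_⟩⟩ <;> nlinarith [h0.1, h0.2, h1.1, h1.2, h2.1, h2.2]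

/-- the same on an interval `[t₀, t₀ + q]`, in the variable `t - t₀` -/
theorem rmz_quad_coeff_int (A B C M t₀ q : ℝ) (hq : 0 < q) (h : ∀ t ∈ Set.Icc t₀ (t₀ + q), |A * (t - t₀) ^ 2 + B * (t - t₀) + C| ≤ M) :
    |A| * q ^ 2 ≤ 8 * M ∧ |B| * q ≤ 8 * M ∧ |C| ≤ M := by
  have key := rmz_quad_coeff (A * q ^ 2) (B * q) C M (by
    intro s hs
    have := h (t₀ + q * s) ⟨by nlinarith [hs.1], by nlinarith [hs.2]⟩
    have e : A * (t₀ + q * s - t₀) ^ 2 + B * (t₀ + q * s - t₀) + C = A * q ^ 2 * s ^ 2 + B * q * s + C := by ring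
    rwa [e] at this)
  rw [abs_mul, abs_mul, abs_of_pos hq, abs_of_pos (by positivity : (0 : ℝ) < q ^ 2)] at key
  exact key

/-! ## 2. Quadratic sublevel sets  (L-252-RMZ-QUAD) -/

/-- **two points of the sublevel set on the same monotone branch are close.**   `Q(w') - Q(w) = (w' - w) (Q'(w) + Q'(w')) / 2`. -/
theorem rmz_quad_branch (A B C ε b w w' : ℝ) (hb : 0 < b) (h1 : |A * w ^ 2 + B * w + C| ≤ ε) (h2 : |A * w' ^ 2 + B * w' + C| ≤ ε)
    (h3 : b ≤ 2 * A * w + B) (h4 : b ≤ 2 * A * w' + B) : |w' - w| ≤ 2 * ε / b := by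
  rw [le_div_iff₀ hb]
  have e : (A * w' ^ 2 + B * w' + C) - (A * w ^ 2 + B * w + C) = (w' - w) * (((2 * A * w + B) + (2 * A * w' + B)) / 2) := by ring
  have hs : b ≤ ((2 * A * w + B) + (2 * A * w' + B)) / 2 := by linarith
  have h5 : |(w' - w) * (((2 * A * w + B) + (2 * A * w' + B)) / 2)| ≤ 2 * ε := by
    rw [← e]
    have a1 := abs_le.1 h1
    have a2 := abs_le.1 h2
    exact abs_le.2 ⟨by linarith [a1.1, a1.2, a2.1, a2.2], by linarith [a1.1, a1.2, a2.1, a2.2]⟩
  rw [abs_mul, abs_of_pos (lt_of_lt_of_le hb hs)] at h5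
  exact (mul_le_mul_of_nonneg_left hs (abs_nonneg _)).trans h5

/-- a set of diameter `≤ D` lies in an interval of length `D` -/
theorem rmz_quad_diam (S : Set ℝ) (D : ℝ) (h : ∀ w ∈ S, ∀ w' ∈ S, |w' - w| ≤ D) : ∃ c : ℝ, S ⊆ Set.Icc c (c + D) := by
  rcases S.eq_empty_or_nonempty with rfl | ⟨w₀, hw₀⟩
  · exact ⟨0, Set.empty_subset _⟩
  · have hbd : BddBelow S := ⟨w₀ - D, fun w hw => by
      have := (abs_le.1 (h w₀ hw₀ w hw)).1
      linarith⟩
    refine ⟨sInf S, fun w hw => ⟨csInf_le hbd hw, ?_⟩⟩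
    have : w - D ≤ sInf S := le_csInf ⟨w₀, hw₀⟩ fun w' hw' => by
      have := (abs_le.1 (h w' hw' w hw)).2
      linarith
    linarith

/-- **the sublevel set lies in two intervals of length `2 ε / b`.**   PLAN: `S₊ = {.., b ≤ Q'}`, `S₋ = {.., Q' ≤ -b}` (apply `rmz_quad_branch` to `-Q`); a set of diameter `≤ D` lies in `[sInf, sInf + D]` (empty set: any `c`). -/
theorem rmz_quad_two (A B C ε b : ℝ) (hε : 0 ≤ ε) (hb : 0 < b) : ∃ c₁ c₂ : ℝ,
    {w : ℝ | |A * w ^ 2 + B * w + C| ≤ ε ∧ b ≤ |2 * A * w + B|} ⊆ Set.Icc c₁ (c₁ + 2 * ε / b) ∪ Set.Icc c₂ (c₂ + 2 * ε / b) := by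
  obtain ⟨c₁, h1⟩ := rmz_quad_diam {w : ℝ | |A * w ^ 2 + B * w + C| ≤ ε ∧ b ≤ 2 * A * w + B} (2 * ε / b)
    fun w hw w' hw' => rmz_quad_branch A B C ε b w w' hb hw.1 hw'.1 hw.2 hw'.2
  obtain ⟨c₂, h2⟩ := rmz_quad_diam {w : ℝ | |A * w ^ 2 + B * w + C| ≤ ε ∧ b ≤ -(2 * A * w + B)} (2 * ε / b)
    fun w hw w' hw' => rmz_quad_branch (-A) (-B) (-C) ε b w w' hb
      (by
        have e : -A * w ^ 2 + -B * w + -C = -(A * w ^ 2 + B * w + C) := by ring
        rw [e, abs_neg]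
        exact hw.1)
      (by
        have e : -A * w' ^ 2 + -B * w' + -C = -(A * w' ^ 2 + B * w' + C) := by ring
        rw [e, abs_neg]
        exact hw'.1)
      (by have := hw.2; linarith) (by have := hw'.2; linarith)
  refine ⟨c₁, c₂, fun w hw => ?_⟩
  rcases le_abs.1 hw.2 with h | h
  · exact Or.inl (h1 ⟨hw.1, h⟩)
  · exact Or.inr (h2 ⟨hw.1, h⟩)

/-- total length `≤ 4 ε / b` -/
theorem rmz_quad_sublevel (A B C ε b : ℝ) (hε : 0 ≤ ε) (hb : 0 < b) :
    volume {w : ℝ | |A * w ^ 2 + B * w + C| ≤ ε ∧ b ≤ |2 * A * w + B|} ≤ ENNReal.ofReal (4 * ε / b) := by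
  obtain ⟨c₁, c₂, h⟩ := rmz_quad_two A B C ε b hε hb
  refine (measure_mono h).trans ((measure_union_le _ _).trans ?_)
  rw [Real.volume_Icc, Real.volume_Icc, add_sub_cancel_left, add_sub_cancel_left, ← ENNReal.ofReal_add (by positivity) (by positivity)]
  refine le_of_eq ?_
  congr 1
  ring

/-- an interval of length `ℓ` meets at most `ℓ/δ + 2` bins -/
theorem rmz_quad_bin_one (c ℓ δ w₀ : ℝ) (hℓ : 0 ≤ ℓ) (hδ : 0 < δ) : ∃ S : Finset ℤ, (S.card : ℝ) ≤ ℓ / δ + 2 ∧
    ∀ w ∈ Set.Icc c (c + ℓ), ⌊(w - w₀) / δ⌋ ∈ S := by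
  refine ⟨Finset.Icc ⌊(c - w₀) / δ⌋ ⌊(c + ℓ - w₀) / δ⌋, ?_, fun w hw => ?_⟩
  · have hle : ⌊(c - w₀) / δ⌋ ≤ ⌊(c + ℓ - w₀) / δ⌋ := Int.floor_le_floor (by gcongr; linarith)
    rw [Int.card_Icc]
    have h1 : ((⌊(c + ℓ - w₀) / δ⌋ + 1 - ⌊(c - w₀) / δ⌋).toNat : ℝ) = ((⌊(c + ℓ - w₀) / δ⌋ + 1 - ⌊(c - w₀) / δ⌋ : ℤ) : ℝ) := by
      have : ((⌊(c + ℓ - w₀) / δ⌋ + 1 - ⌊(c - w₀) / δ⌋).toNat : ℤ) = ⌊(c + ℓ - w₀) / δ⌋ + 1 - ⌊(c - w₀) / δ⌋ := Int.toNat_of_nonneg (by linarith)
      exact_mod_cast this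
    rw [h1]
    push_cast
    have h2 := Int.floor_le ((c + ℓ - w₀) / δ)
    have h3 := Int.lt_floor_add_one ((c - w₀) / δ)
    have h4 : (c + ℓ - w₀) / δ = (c - w₀) / δ + ℓ / δ := by ring
    linarith
  · rw [Finset.mem_Icc]
    exact ⟨Int.floor_le_floor (by gcongr; exact hw.1), Int.floor_le_floor (by gcongr; exact hw.2)⟩

/-- the bins of a grid of width `δ` (any offset `w₀`) met by the sublevel set: an interval of length `ℓ` meets at most `ℓ/δ + 2` bins -/
theorem rmz_quad_bins (A B C ε b δ w₀ : ℝ) (hε : 0 ≤ ε) (hb : 0 < b) (hδ : 0 < δ) : ∃ S : Finset ℤ, (S.card : ℝ) ≤ 4 * (1 + ε / (b * δ)) ∧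
    ∀ w : ℝ, |A * w ^ 2 + B * w + C| ≤ ε → b ≤ |2 * A * w + B| → ⌊(w - w₀) / δ⌋ ∈ S := by
  obtain ⟨c₁, c₂, h⟩ := rmz_quad_two A B C ε b hε hb
  obtain ⟨S₁, h1, h1'⟩ := rmz_quad_bin_one c₁ (2 * ε / b) δ w₀ (by positivity) hδ
  obtain ⟨S₂, h2, h2'⟩ := rmz_quad_bin_one c₂ (2 * ε / b) δ w₀ (by positivity) hδ
  refine ⟨S₁ ∪ S₂, ?_, fun w hw hw' => ?_⟩
  · have h3 : ((S₁ ∪ S₂).card : ℝ) ≤ (S₁.card : ℝ) + (S₂.card : ℝ) := by exact_mod_cast Finset.card_union_le S₁ S₂
    have h4 : 4 * (1 + ε / (b * δ)) = (2 * ε / b / δ + 2) + (2 * ε / b / δ + 2) := by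
      field_simp
      ring
    linarith
  · rcases h ⟨hw, hw'⟩ with h5 | h5
    · exact Finset.mem_union_left _ (h1' w h5)
    · exact Finset.mem_union_right _ (h2' w h5)

/-! ## 3. Affine good times  (L-252-RMZ-AFF) -/

/-- PLAN (paper): `M = |g(t₁)| ≥ m`.  If `|β| q < M / 2` then `|g| > M/2` on the interval: the set is empty if `ε ≤ 1/2`, and for `ε > 1/2` the bound exceeds the length `q` of the interval.
Otherwise `|β| ≥ M/(2q)` and `{|g| < ε m}` is an interval of length `2 ε m / |β| ≤ 4 ε q`. -/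
theorem rmz_affine_good_time (α β t₀ q m ε : ℝ) (hq : 0 < q) (hm : 0 < m) (hε : 0 < ε) (hsup : ∃ t ∈ Set.Icc t₀ (t₀ + q), m ≤ |α + β * t|) :
    volume {t : ℝ | t ∈ Set.Icc t₀ (t₀ + q) ∧ |α + β * t| < ε * m} ≤ ENNReal.ofReal (4 * ε * q) := by
  by_cases hε2 : 1 / 2 < ε
  · calc volume {t : ℝ | t ∈ Set.Icc t₀ (t₀ + q) ∧ |α + β * t| < ε * m} ≤ volume (Set.Icc t₀ (t₀ + q)) := measure_mono (fun t ht => ht.1)
      _ = ENNReal.ofReal q := by rw [Real.volume_Icc]; congr 1; ring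
      _ ≤ ENNReal.ofReal (4 * ε * q) := ENNReal.ofReal_le_ofReal (by nlinarith)
  · push Not at hε2
    by_cases hne : {t : ℝ | t ∈ Set.Icc t₀ (t₀ + q) ∧ |α + β * t| < ε * m}.Nonempty
    swap
    · rw [Set.not_nonempty_iff_eq_empty.1 hne]
      simp
    obtain ⟨t₂, ht₂, hg₂⟩ := hne
    obtain ⟨t₁, ht₁, hg₁⟩ := hsup
    have h1 : m / 2 ≤ |β| * q := by
      have h0 : |α + β * t₁| - |α + β * t₂| ≤ |β * (t₁ - t₂)| := by
        have := abs_sub_abs_le_abs_sub (α + β * t₁) (α + β * t₂)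
        have e : α + β * t₁ - (α + β * t₂) = β * (t₁ - t₂) := by ring
        rwa [e] at this
      rw [abs_mul] at h0
      have h2 : |t₁ - t₂| ≤ q := abs_le.2 ⟨by linarith [ht₁.1, ht₂.2], by linarith [ht₁.2, ht₂.1]⟩
      have h3 : |β| * |t₁ - t₂| ≤ |β| * q := mul_le_mul_of_nonneg_left h2 (abs_nonneg _)
      have h4 : ε * m ≤ 1 / 2 * m := mul_le_mul_of_nonneg_right hε2 hm.le
      linarith
    have hβ : 0 < |β| := by
      by_contra h
      have h0 : |β| = 0 := le_antisymm (not_lt.1 h) (abs_nonneg _)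
      rw [h0, zero_mul] at h1
      linarith
    have hβ0 : β ≠ 0 := abs_pos.1 hβ
    have hsub : {t : ℝ | t ∈ Set.Icc t₀ (t₀ + q) ∧ |α + β * t| < ε * m} ⊆ Set.Icc (-α / β - 2 * ε * q) (-α / β + 2 * ε * q) := by
      intro t ht
      have e : α + β * t = β * (t - (-α / β)) := by
        field_simp
        ring
      have h4 : |β| * |t - (-α / β)| < ε * m := by
        rw [← abs_mul, ← e]
        exact ht.2
      have h5 : |t - (-α / β)| ≤ 2 * ε * q := by
        by_contra hcon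
        push Not at hcon
        have h6 : |β| * (2 * ε * q) < |β| * |t - (-α / β)| := mul_lt_mul_of_pos_left hcon hβ
        have h7 : ε * (m / 2) ≤ ε * (|β| * q) := mul_le_mul_of_nonneg_left h1 hε.le
        nlinarith
      have h8 := abs_le.1 h5
      exact ⟨by linarith [h8.1], by linarith [h8.2]⟩
    calc volume {t : ℝ | t ∈ Set.Icc t₀ (t₀ + q) ∧ |α + β * t| < ε * m} ≤ volume (Set.Icc (-α / β - 2 * ε * q) (-α / β + 2 * ε * q)) :=
          measure_mono hsub
      _ = ENNReal.ofReal (4 * ε * q) := by rw [Real.volume_Icc]; congr 1; ring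

/-! ## 4. Monic polynomials  (L-252-RMZ-MONIC) -/

/-- a product of factors `t - z` is large if `t` is far from the real parts -/
theorem rmz_prod_lower (s : Multiset ℂ) (t r : ℝ) (hr : 0 ≤ r) (h : ∀ z ∈ s, r ≤ |t - z.re|) :
    r ^ Multiset.card s ≤ ‖(s.map fun z => (t : ℂ) - z).prod‖ := by
  induction s using Multiset.induction_on with
  | empty => simp
  | cons a s ih =>
    rw [Multiset.map_cons, Multiset.prod_cons, Multiset.card_cons, norm_mul, pow_succ, mul_comm]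
    have h1 : r ≤ ‖(t : ℂ) - a‖ := by
      refine le_trans (h a (Multiset.mem_cons_self a s)) ?_
      have := Complex.abs_re_le_norm ((t : ℂ) - a)
      simpa using this
    exact mul_le_mul h1 (ih fun z hz => h z (Multiset.mem_cons_of_mem hz)) (pow_nonneg hr _) (norm_nonneg _)

/-- PLAN: `q = p.map (algebraMap ℝ ℂ)` is monic and splits (`IsAlgClosed.splits`): `q = ∏_{z ∈ q.roots} (X - C z)` (`Polynomial.eq_prod_roots_of_monic_of_splits_id` or the current name), `card q.roots = natDegree p`;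
`Z = (q.roots.map Complex.re).toFinset`;  `|t - z| ≥ |t - re z| ≥ r` (`Complex.abs_re_le_norm`);  `‖q.eval t‖ = |p.eval t|` (`Polynomial.eval_map_algebraMap`/`Complex.ofReal`), `Multiset.prod_map`, norm of a product. -/
theorem rmz_monic_lower (p : ℝ[X]) (hp : p.Monic) : ∃ Z : Finset ℝ, Z.card ≤ p.natDegree ∧
    ∀ r t : ℝ, 0 ≤ r → (∀ c ∈ Z, r ≤ |t - c|) → r ^ p.natDegree ≤ |p.eval t| := by
  classical
  obtain ⟨q, hq⟩ : ∃ q : ℂ[X], q = p.map (algebraMap ℝ ℂ) := ⟨_, rfl⟩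
  have hqm : q.Monic := by rw [hq]; exact hp.map _
  have hcard : Multiset.card q.roots = p.natDegree := by
    rw [IsAlgClosed.card_roots_eq_natDegree, hq, natDegree_map]
  refine ⟨(q.roots.map Complex.re).toFinset, ?_, fun r t hr h => ?_⟩
  · calc (q.roots.map Complex.re).toFinset.card ≤ Multiset.card (q.roots.map Complex.re) := Multiset.toFinset_card_le _
      _ = p.natDegree := by rw [Multiset.card_map, hcard]
  · have h1 : q.eval (t : ℂ) = (q.roots.map fun z => (t : ℂ) - z).prod := (IsAlgClosed.splits q).eval_eq_prod_roots_of_monic hqm _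
    have h2 : q.eval (t : ℂ) = ((p.eval t : ℝ) : ℂ) := by
      rw [hq, eval_map]
      exact eval₂_at_apply (algebraMap ℝ ℂ) t
    have h3 := rmz_prod_lower q.roots t r hr (fun z hz => h z.re (by
      rw [Multiset.mem_toFinset]
      exact Multiset.mem_map_of_mem _ hz))
    rw [← h1, h2, hcard, Complex.norm_real, Real.norm_eq_abs] at h3
    exact h3

/-- the bad set has measure `≤ 2 n r` -/
theorem rmz_monic_bad (p : ℝ[X]) (hp : p.Monic) (r : ℝ) (hr : 0 ≤ r) :
    volume {t : ℝ | |p.eval t| < r ^ p.natDegree} ≤ ENNReal.ofReal (2 * p.natDegree * r) := by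
  obtain ⟨Z, hZ, h⟩ := rmz_monic_lower p hp
  have hsub : {t : ℝ | |p.eval t| < r ^ p.natDegree} ⊆ ⋃ c ∈ Z, Set.Ioo (c - r) (c + r) := by
    intro t ht
    by_contra hcon
    refine absurd (h r t hr fun c hc => ?_) (not_le.2 ht)
    by_contra h1
    push Not at h1
    have h2 := abs_lt.1 h1
    exact hcon (Set.mem_biUnion hc ⟨by linarith [h2.1], by linarith [h2.2]⟩)
  calc volume {t : ℝ | |p.eval t| < r ^ p.natDegree} ≤ volume (⋃ c ∈ Z, Set.Ioo (c - r) (c + r)) := measure_mono hsub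
    _ ≤ ∑ c ∈ Z, volume (Set.Ioo (c - r) (c + r)) := measure_biUnion_finset_le _ _
    _ = ∑ c ∈ Z, ENNReal.ofReal (2 * r) := by
        refine Finset.sum_congr rfl fun c _ => ?_
        rw [Real.volume_Ioo]
        congr 1
        ring
    _ = ENNReal.ofReal (Z.card * (2 * r)) := by
        rw [Finset.sum_const, nsmul_eq_mul, ENNReal.ofReal_mul (Nat.cast_nonneg _), ENNReal.ofReal_natCast]
    _ ≤ ENNReal.ofReal (2 * p.natDegree * r) := by
        apply ENNReal.ofReal_le_ofReal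
        have : (Z.card : ℝ) ≤ p.natDegree := by exact_mod_cast hZ
        nlinarith

/-! ## 5. Sign changes  (L-252-RMZ-SIGN) -/

/-- **the sign of a polynomial is constant on every interval without roots**; `Z = p.roots.toFinset` (`Polynomial.card_roots'`), intermediate value theorem (`intermediate_value_Icc`, `Polynomial.continuous`); `p = 0` is trivial -/
theorem rmz_sign_const (p : ℝ[X]) : ∃ Z : Finset ℝ, Z.card ≤ p.natDegree ∧
    ∀ s t : ℝ, s ≤ t → (∀ z ∈ Z, z ∉ Set.Icc s t) → SignType.sign (p.eval s) = SignType.sign (p.eval t) := by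
  classical
  refine ⟨p.roots.toFinset, le_trans (Multiset.toFinset_card_le _) (card_roots' p), fun s t hst h => ?_⟩
  by_cases hp : p = 0
  · rw [hp]; simp
  have hroot : ∀ x ∈ Set.Icc s t, p.eval x ≠ 0 := by
    intro x hx h0
    exact h x (Multiset.mem_toFinset.2 ((mem_roots hp).2 h0)) hx
  have hs := hroot s ⟨le_rfl, hst⟩
  have ht := hroot t ⟨hst, le_rfl⟩
  have hc : ContinuousOn (fun x => p.eval x) (Set.Icc s t) := p.continuous.continuousOn
  rcases lt_or_gt_of_ne hs with h1 | h1 <;> rcases lt_or_gt_of_ne ht with h2 | h2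
  · rw [sign_neg h1, sign_neg h2]
  · obtain ⟨x, hx, hx0⟩ := intermediate_value_Icc hst hc ⟨h1.le, h2.le⟩
    exact absurd hx0 (hroot x hx)
  · obtain ⟨x, hx, hx0⟩ := intermediate_value_Icc' hst hc ⟨h2.le, h1.le⟩
    exact absurd hx0 (hroot x hx)
  · rw [sign_pos h1, sign_pos h2]

/-- **`L¹` modulus of translation of a bounded function with finitely many jumps.**   `g (t + s) ≠ g t` only if a point of `Z` lies between `t` and `t + s`: a set of measure `≤ #Z |s|`; there the integrand is `≤ 2 H`. -/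
theorem rmz_translate_L1 (g : ℝ → ℝ) (H : ℝ) (Z : Finset ℝ) (hH : ∀ t, |g t| ≤ H)
    (hloc : ∀ s t : ℝ, s ≤ t → (∀ z ∈ Z, z ∉ Set.Icc s t) → g s = g t) (s : ℝ) :
    ∫⁻ t, ENNReal.ofReal |g (t + s) - g t| ≤ ENNReal.ofReal (2 * H * Z.card * |s|) := by
  classical
  have hH0 : 0 ≤ H := le_trans (abs_nonneg _) (hH 0)
  obtain ⟨B, hB⟩ : ∃ B : Set ℝ, B = ⋃ z ∈ Z, Set.Icc (z - max s 0) (z + max (-s) 0) := ⟨_, rfl⟩
  have hBm : MeasurableSet B := by
    rw [hB]
    exact Finset.measurableSet_biUnion _ (fun z _ => measurableSet_Icc)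
  have hvol : volume B ≤ (Z.card : ENNReal) * ENNReal.ofReal |s| := by
    rw [hB]
    calc volume (⋃ z ∈ Z, Set.Icc (z - max s 0) (z + max (-s) 0)) ≤ ∑ z ∈ Z, volume (Set.Icc (z - max s 0) (z + max (-s) 0)) :=
          measure_biUnion_finset_le _ _
      _ = ∑ z ∈ Z, ENNReal.ofReal |s| := by
          refine Finset.sum_congr rfl fun z _ => ?_
          rw [Real.volume_Icc]
          congr 1
          rcases le_total 0 s with h | h
          · rw [max_eq_left h, max_eq_right (by linarith), abs_of_nonneg h]; ring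
          · rw [max_eq_right h, max_eq_left (by linarith), abs_of_nonpos h]; ring
      _ = (Z.card : ENNReal) * ENNReal.ofReal |s| := by rw [Finset.sum_const, nsmul_eq_mul]
  have hpt : ∀ t, ENNReal.ofReal |g (t + s) - g t| ≤ B.indicator (fun _ => ENNReal.ofReal (2 * H)) t := by
    intro t
    by_cases ht : t ∈ B
    · rw [Set.indicator_of_mem ht]
      apply ENNReal.ofReal_le_ofReal
      have h1 := abs_le.1 (hH (t + s))
      have h2 := abs_le.1 (hH t)
      exact abs_le.2 ⟨by linarith [h1.1, h2.2], by linarith [h1.2, h2.1]⟩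
    · rw [Set.indicator_of_notMem ht]
      have e : g (t + s) = g t := by
        rcases le_total 0 s with h | h
        · refine (hloc t (t + s) (by linarith) fun z hz hzI => ht ?_).symm
          rw [hB]
          refine Set.mem_biUnion hz ⟨?_, ?_⟩
          · rw [max_eq_left h]; linarith [hzI.2]
          · rw [max_eq_right (by linarith)]; linarith [hzI.1]
        · refine hloc (t + s) t (by linarith) fun z hz hzI => ht ?_
          rw [hB]
          refine Set.mem_biUnion hz ⟨?_, ?_⟩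
          · rw [max_eq_right h]; linarith [hzI.2]
          · rw [max_eq_left (by linarith)]; linarith [hzI.1]
      rw [e, sub_self, abs_zero, ENNReal.ofReal_zero]
  calc ∫⁻ t, ENNReal.ofReal |g (t + s) - g t| ≤ ∫⁻ t, B.indicator (fun _ => ENNReal.ofReal (2 * H)) t := lintegral_mono hpt
    _ = ENNReal.ofReal (2 * H) * volume B := lintegral_indicator_const hBm _
    _ ≤ ENNReal.ofReal (2 * H) * ((Z.card : ENNReal) * ENNReal.ofReal |s|) := by gcongr
    _ = ENNReal.ofReal (2 * H * Z.card * |s|) := by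
        rw [← ENNReal.ofReal_natCast, ← ENNReal.ofReal_mul (by positivity), ← ENNReal.ofReal_mul (by positivity)]
        congr 1
        ring

end Claimed.Agent.R252
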