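-- KEEP
import Claimed.Agent.R252.Remez.Defs

/-!
# ROW 252, BOX 6a: THE POLYNOMIAL KIT, ONE VARIABLE.   CLOSED, all proved      (architect helper78; prefix `rmz_`)

PAPER-FREE, Mathlib only.   STATEMENTS ARE FROZEN (defects: message to helper78).   All leaves proved 18:46Z (helpers 173, 35, 259, 158, 41, 78).
LEAVES:  L-252-RMZ-N (s1: the coefficient norm),  L-252-RMZ-NODES (s2: `rmz_nodes`),  L-252-RMZ-LAG (s2: `rmz_nodes_coeff`),  L-252-RMZ-ONE (s3),  L-252-RMZ-INT (s4).
-/

set_option autoImplicit false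

namespace Claimed.Agent.R252

open Polynomial MeasureTheory

/-! ## 1. The coefficient norm  (L-252-RMZ-N) -/

theorem rmz_N_nonneg (p : ℝ[X]) : 0 ≤ rmzN p := Finset.sum_nonneg fun _ _ => abs_nonneg _

theorem rmz_N_eq_sum (p : ℝ[X]) (d : ℕ) (hp : p.natDegree ≤ d) : rmzN p = ∑ k ∈ Finset.range (d + 1), |p.coeff k| := by
  unfold rmzN
  refine Finset.sum_subset ?_ ?_
  · intro k hk
    rw [Finset.mem_range]
    exact Nat.lt_succ_of_le ((le_natDegree_of_mem_supp k hk).trans hp)
  · intro k _ hk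
    rw [notMem_support_iff.1 hk, abs_zero]

theorem rmz_coeff_le_N (p : ℝ[X]) (k : ℕ) : |p.coeff k| ≤ rmzN p := by
  by_cases hk : k ∈ p.support
  · exact Finset.single_le_sum (f := fun k => |p.coeff k|) (fun _ _ => abs_nonneg _) hk
  · rw [notMem_support_iff.1 hk, abs_zero]
    exact rmz_N_nonneg p

theorem rmz_N_add (p q : ℝ[X]) : rmzN (p + q) ≤ rmzN p + rmzN q := by
  have h1 : p.natDegree ≤ max p.natDegree q.natDegree := le_max_left _ _
  have h2 : q.natDegree ≤ max p.natDegree q.natDegree := le_max_right _ _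
  rw [rmz_N_eq_sum (p + q) _ (natDegree_add_le p q), rmz_N_eq_sum p _ h1, rmz_N_eq_sum q _ h2, ← Finset.sum_add_distrib]
  refine Finset.sum_le_sum fun k _ => ?_
  rw [coeff_add]
  exact abs_add_le _ _

theorem rmz_N_zero : rmzN 0 = 0 := by
  simp [rmzN]

theorem rmz_N_sum {ι : Type} (s : Finset ι) (f : ι → ℝ[X]) : rmzN (∑ i ∈ s, f i) ≤ ∑ i ∈ s, rmzN (f i) := by
  classical
  induction s using Finset.induction_on with
  | empty => simp [rmz_N_zero]
  | insert a s ha ih =>
    rw [Finset.sum_insert ha, Finset.sum_insert ha]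
    exact (rmz_N_add _ _).trans (by linarith)

theorem rmz_N_C_mul (c : ℝ) (p : ℝ[X]) : rmzN (C c * p) = |c| * rmzN p := by
  rw [rmz_N_eq_sum (C c * p) p.natDegree (natDegree_C_mul_le c p), rmz_N_eq_sum p _ le_rfl, Finset.mul_sum]
  refine Finset.sum_congr rfl fun k _ => ?_
  rw [coeff_C_mul, abs_mul]

theorem rmz_N_mul (p q : ℝ[X]) : rmzN (p * q) ≤ rmzN p * rmzN q := by
  -- expand `p` as a sum of monomials
  have key : ∀ (k : ℕ) (c : ℝ), rmzN (C c * X ^ k * q) = |c| * rmzN q := by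
    intro k c
    rw [mul_assoc, rmz_N_C_mul]
    congr 1
    rw [rmz_N_eq_sum (X ^ k * q) (k + q.natDegree) (by
      refine natDegree_mul_le.trans ?_
      rw [natDegree_X_pow]), rmz_N_eq_sum q _ le_rfl]
    rw [show k + q.natDegree + 1 = k + (q.natDegree + 1) by ring, Finset.sum_range_add]
    have h0 : ∑ x ∈ Finset.range k, |(X ^ k * q).coeff x| = 0 := by
      refine Finset.sum_eq_zero fun x hx => ?_
      rw [coeff_X_pow_mul', if_neg (by have := Finset.mem_range.1 hx; omega), abs_zero]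
    rw [h0, zero_add]
    refine Finset.sum_congr rfl fun x _ => ?_
    rw [coeff_X_pow_mul', if_pos (by omega)]
    congr 2
    omega
  conv_lhs => rw [p.as_sum_support_C_mul_X_pow, Finset.sum_mul]
  refine (rmz_N_sum _ _).trans ?_
  unfold rmzN at key ⊢
  rw [Finset.sum_mul]
  exact Finset.sum_le_sum fun k _ => (key k _).le

theorem rmz_N_one : rmzN 1 = 1 := by
  rw [rmz_N_eq_sum 1 0 (by simp)]
  simp

theorem rmz_N_prod {ι : Type} (s : Finset ι) (f : ι → ℝ[X]) : rmzN (∏ i ∈ s, f i) ≤ ∏ i ∈ s, rmzN (f i) := by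
  classical
  induction s using Finset.induction_on with
  | empty => simp [rmz_N_one]
  | insert a s ha ih =>
    rw [Finset.prod_insert ha, Finset.prod_insert ha]
    exact (rmz_N_mul _ _).trans (mul_le_mul_of_nonneg_left ih (rmz_N_nonneg _))

theorem rmz_N_X_sub_C (t : ℝ) : rmzN (X - C t) ≤ 1 + |t| := by
  rw [rmz_N_eq_sum (X - C t) 1 (natDegree_X_sub_C_le t)]
  simp [Finset.sum_range_succ, coeff_X, coeff_C]
  linarith

theorem rmz_N_derivative (p : ℝ[X]) (d : ℕ) (hp : p.natDegree ≤ d) : rmzN (derivative p) ≤ d * rmzN p := by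
  rw [rmz_N_eq_sum (derivative p) d ((natDegree_derivative_le p).trans ((Nat.sub_le _ _).trans hp)),
    rmz_N_eq_sum p (d + 1) (hp.trans (Nat.le_succ d)), Finset.sum_range_succ' (fun k => |p.coeff k|) (d + 1), mul_add, Finset.mul_sum]
  have h0 : 0 ≤ (d : ℝ) * |p.coeff 0| := by positivity
  refine le_trans (Finset.sum_le_sum fun k hk => ?_) (le_add_of_nonneg_right h0)
  rw [coeff_derivative, abs_mul]
  by_cases hkd : k + 1 ≤ d
  · rw [mul_comm]
    refine mul_le_mul_of_nonneg_right ?_ (abs_nonneg _)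
    rw [abs_of_nonneg (by positivity)]
    exact_mod_cast hkd
  · rw [coeff_eq_zero_of_natDegree_lt (by omega)]
    simp

theorem rmz_N_iter_derivative (p : ℝ[X]) (d : ℕ) (hp : p.natDegree ≤ d) (k : ℕ) : rmzN (derivative^[k] p) ≤ (d : ℝ) ^ k * rmzN p := by
  induction k with
  | zero => simp
  | succ k ih =>
    rw [Function.iterate_succ_apply']
    have hd : (derivative^[k] p).natDegree ≤ d := (natDegree_iterate_derivative p k).trans ((Nat.sub_le _ _).trans hp)
    refine (rmz_N_derivative _ d hd).trans ?_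
    rw [pow_succ]
    have : (d : ℝ) * rmzN (derivative^[k] p) ≤ d * ((d : ℝ) ^ k * rmzN p) := mul_le_mul_of_nonneg_left ih (by positivity)
    linarith

theorem rmz_eval_le (p : ℝ[X]) (d : ℕ) (hp : p.natDegree ≤ d) (L x : ℝ) (hL : 1 ≤ L) (hx : |x| ≤ L) : |p.eval x| ≤ rmzN p * L ^ d := by
  rw [eval_eq_sum_range' (Nat.lt_succ_of_le hp), rmz_N_eq_sum p d hp, Finset.sum_mul]
  refine (Finset.abs_sum_le_sum_abs _ _).trans (Finset.sum_le_sum fun k hk => ?_)
  rw [abs_mul, abs_pow]
  refine mul_le_mul_of_nonneg_left ?_ (abs_nonneg _)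
  calc |x| ^ k ≤ L ^ k := pow_le_pow_left₀ (abs_nonneg _) hx k
    _ ≤ L ^ d := pow_le_pow_right₀ hL (Nat.lt_succ_iff.1 (Finset.mem_range.1 hk))

theorem rmz_aeval_le (p : ℝ[X]) (d : ℕ) (hp : p.natDegree ≤ d) (L : ℝ) (z : ℂ) (hL : 1 ≤ L) (hz : ‖z‖ ≤ L) : ‖aeval z p‖ ≤ rmzN p * L ^ d := by
  rw [aeval_eq_sum_range' (Nat.lt_succ_of_le hp), rmz_N_eq_sum p d hp, Finset.sum_mul]
  refine (norm_sum_le _ _).trans (Finset.sum_le_sum fun k hk => ?_)
  rw [norm_smul, norm_pow, Real.norm_eq_abs]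
  refine mul_le_mul_of_nonneg_left ?_ (abs_nonneg _)
  calc ‖z‖ ^ k ≤ L ^ k := pow_le_pow_left₀ (norm_nonneg _) hz k
    _ ≤ L ^ d := pow_le_pow_right₀ hL (Nat.lt_succ_iff.1 (Finset.mem_range.1 hk))

/-! ## 2. Separated nodes -/

/-- **a set of positive outer measure contains separated points** (`E` is ANY set).
PLAN: induction on `d`.  Step: `x₀, …, x_d` from the induction hypothesis (`2 δ d ≤ 2 δ (d+1)`); `U = ⋃ᵢ Ioo (xᵢ - δ) (xᵢ + δ)` has measure `≤ 2 δ (d+1)` (`measure_iUnion_fintype_le`/`measure_biUnion_finset_le`, `Real.volume_Ioo`);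
`volume E ≤ volume (E \ U) + volume U` (`measure_mono`, `measure_union_le`), so `E \ U` is nonempty; append the new point (`Fin.snoc` or `Fin.cons`). -/
theorem rmz_nodes (d : ℕ) (E : Set ℝ) (δ : ℝ) (hδ : 0 < δ) (hE : ENNReal.ofReal (2 * δ * d) < volume E) :
    ∃ x : Fin (d + 1) → ℝ, (∀ i, x i ∈ E) ∧ ∀ i j, i ≠ j → δ ≤ |x i - x j| := by
  induction d with
  | zero =>
    have hne : E.Nonempty := by
      by_contra h
      rw [Set.not_nonempty_iff_eq_empty] at h
      rw [h, measure_empty] at hE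
      exact absurd hE (not_lt.2 zero_le)
    obtain ⟨y, hy⟩ := hne
    exact ⟨fun _ => y, fun _ => hy, fun i j hij => absurd (Fin.ext (by omega)) hij⟩
  | succ d ih =>
    have h1 : ENNReal.ofReal (2 * δ * d) < volume E := by
      refine lt_of_le_of_lt (ENNReal.ofReal_le_ofReal ?_) hE
      push_cast
      nlinarith
    obtain ⟨x, hxE, hsep⟩ := ih h1
    set U : Set ℝ := ⋃ i, Set.Ioo (x i - δ) (x i + δ) with hU
    have hUvol : volume U ≤ ENNReal.ofReal (2 * δ * ((d + 1 : ℕ) : ℝ)) := by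
      refine (measure_iUnion_fintype_le _ _).trans ?_
      have : ∀ i : Fin (d + 1), volume (Set.Ioo (x i - δ) (x i + δ)) = ENNReal.ofReal (2 * δ) := by
        intro i
        rw [Real.volume_Ioo]
        congr 1
        ring
      rw [Finset.sum_congr rfl fun i _ => this i, Finset.sum_const, Finset.card_univ, Fintype.card_fin, nsmul_eq_mul,
        mul_comm (2 * δ) ((d + 1 : ℕ) : ℝ), ENNReal.ofReal_mul (Nat.cast_nonneg _), ENNReal.ofReal_natCast]
    have hne : (E \ U).Nonempty := by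
      by_contra h
      rw [Set.not_nonempty_iff_eq_empty, Set.sdiff_eq_empty] at h
      exact absurd (lt_of_lt_of_le hE ((measure_mono h).trans hUvol)) (lt_irrefl _)
    obtain ⟨y, hyE, hyU⟩ := hne
    have hy : ∀ i, δ ≤ |y - x i| := by
      intro i
      by_contra hlt
      push Not at hlt
      apply hyU
      rw [hU, Set.mem_iUnion]
      rw [abs_lt] at hlt
      exact ⟨i, by constructor <;> linarith [hlt.1, hlt.2]⟩
    refine ⟨Fin.cons y x, ?_, ?_⟩
    · intro i
      refine Fin.cases ?_ (fun i => ?_) i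
      · simpa using hyE
      · simpa using hxE i
    · intro i j
      refine Fin.cases ?_ (fun i => ?_) i <;> refine Fin.cases ?_ (fun j => ?_) j
      · intro h; exact absurd rfl h
      · intro _
        simpa using hy j
      · intro _
        rw [abs_sub_comm]
        simpa using hy i
      · intro h
        have : i ≠ j := fun e => h (by rw [e])
        simpa using hsep i j this

/-- **Lagrange interpolation at separated nodes bounds the coefficients.**
PLAN: `p = ∑ᵢ C (p(xᵢ)) * ∏_{j ≠ i} C (xᵢ - xⱼ)⁻¹ * (X - C xⱼ)` (`Lagrange.eq_interpolate_of_eval_eq` / `Lagrange.interpolate_apply`, `Lagrange.basis`, `Lagrange.basisDivisor`; the nodes are injective by `hsep`, `degree p < d + 1`);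
`rmz_N_sum`, `rmz_N_C_mul`, `rmz_N_prod`, `rmz_N_X_sub_C` : every basis polynomial has norm `≤ ((1 + L)/δ)^d` (`d` factors). -/
theorem rmz_nodes_coeff (d : ℕ) (p : ℝ[X]) (hp : p.natDegree ≤ d) (x : Fin (d + 1) → ℝ) (δ L M : ℝ) (hδ : 0 < δ)
    (hsep : ∀ i j, i ≠ j → δ ≤ |x i - x j|) (hL : ∀ i, |x i| ≤ L) (hM : ∀ i, |p.eval (x i)| ≤ M) :
    rmzN p ≤ ((d : ℝ) + 1) * ((1 + L) / δ) ^ d * M := by
  have hM0 : 0 ≤ M := (abs_nonneg _).trans (hM 0)
  have hL0 : 0 ≤ L := (abs_nonneg _).trans (hL 0)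
  have hinj : Set.InjOn x (↑(Finset.univ : Finset (Fin (d + 1)))) := by
    intro i _ j _ e
    by_contra hij
    have := hsep i j hij
    rw [e, sub_self, abs_zero] at this
    linarith
  have hdeg : p.degree < ((Finset.univ : Finset (Fin (d + 1))).card : ℕ) := by
    rw [Finset.card_univ, Fintype.card_fin]
    exact lt_of_le_of_lt degree_le_natDegree (by exact_mod_cast Nat.lt_succ_of_le hp)
  have hp' := Lagrange.eq_interpolate hinj hdeg
  rw [Lagrange.interpolate_apply] at hp'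
  have hbasis : ∀ i, rmzN (Lagrange.basis Finset.univ x i) ≤ ((1 + L) / δ) ^ d := by
    intro i
    unfold Lagrange.basis
    refine (rmz_N_prod _ _).trans ?_
    have hc : (Finset.univ.erase i).card = d := by
      rw [Finset.card_erase_of_mem (Finset.mem_univ i), Finset.card_univ, Fintype.card_fin]
      rfl
    calc ∏ j ∈ Finset.univ.erase i, rmzN (Lagrange.basisDivisor (x i) (x j))
        ≤ ∏ _j ∈ Finset.univ.erase i, ((1 + L) / δ) := by
          refine Finset.prod_le_prod (fun j _ => rmz_N_nonneg _) fun j hj => ?_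
          unfold Lagrange.basisDivisor
          rw [rmz_N_C_mul, abs_inv, div_eq_inv_mul]
          have hij : i ≠ j := (Finset.ne_of_mem_erase hj).symm
          have h1 : |x i - x j|⁻¹ ≤ δ⁻¹ := inv_anti₀ hδ (hsep i j hij)
          have h2 : rmzN (X - C (x j)) ≤ 1 + L := (rmz_N_X_sub_C _).trans (by linarith [hL j])
          exact mul_le_mul h1 h2 (rmz_N_nonneg _) (inv_pos.2 hδ).le
      _ = ((1 + L) / δ) ^ d := by rw [Finset.prod_const, hc]
  rw [hp']
  refine (rmz_N_sum _ _).trans ?_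
  calc ∑ i, rmzN (C (p.eval (x i)) * Lagrange.basis Finset.univ x i)
      ≤ ∑ _i : Fin (d + 1), M * ((1 + L) / δ) ^ d := by
        refine Finset.sum_le_sum fun i _ => ?_
        rw [rmz_N_C_mul]
        exact mul_le_mul (hM i) (hbasis i) (rmz_N_nonneg _) hM0
    _ = ((d : ℝ) + 1) * ((1 + L) / δ) ^ d * M := by
        rw [Finset.sum_const, Finset.card_univ, Fintype.card_fin, nsmul_eq_mul]
        push_cast
        ring

/-! ## 3. Remez on `[0,1]`  (L-252-RMZ-ONE) -/

theorem rmz_C_pos (d : ℕ) (θ : ℝ) (hθ : 0 < θ) : 0 < rmzC d θ := by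
  unfold rmzC
  positivity

/-- the constant decreases in `θ` -/
theorem rmz_C_anti (d : ℕ) {θ θ' : ℝ} (hθ : 0 < θ) (h : θ ≤ θ') : rmzC d θ' ≤ rmzC d θ := by
  unfold rmzC
  have : 4 * ((d : ℝ) + 1) / θ' ≤ 4 * ((d : ℝ) + 1) / θ := div_le_div_of_nonneg_left (by positivity) hθ h
  have h0 : 0 ≤ 4 * ((d : ℝ) + 1) / θ' := by
    have : 0 < θ' := hθ.trans_le h
    positivity
  exact mul_le_mul_of_nonneg_left (pow_le_pow_left₀ h0 this d) (by positivity)

/-- **REMEZ, one variable, measure form, coefficient norm** (`E` is ANY subset of `[0,1]` of outer measure `≥ θ`).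
PLAN: `rmz_nodes` with `δ = θ / (2 (d+1))` (`2 δ d < θ`), `rmz_nodes_coeff` with `L = 1`: `(1 + 1)/δ = 4 (d+1)/θ`. -/
theorem rmz_one (d : ℕ) (p : ℝ[X]) (hp : p.natDegree ≤ d) (θ M : ℝ) (hθ : 0 < θ) (E : Set ℝ) (hE : E ⊆ Set.Icc 0 1)
    (hvol : ENNReal.ofReal θ ≤ volume E) (hM : ∀ x ∈ E, |p.eval x| ≤ M) : rmzN p ≤ rmzC d θ * M := by
  set δ : ℝ := θ / (2 * ((d : ℝ) + 1)) with hδdef
  have hδ : 0 < δ := by positivity
  have h1 : ENNReal.ofReal (2 * δ * d) < volume E := by
    refine lt_of_lt_of_le ((ENNReal.ofReal_lt_ofReal_iff hθ).2 ?_) hvol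
    rw [hδdef]
    have : 2 * (θ / (2 * ((d : ℝ) + 1))) * d = θ * (d / ((d : ℝ) + 1)) := by field_simp
    rw [this]
    have h2 : (d : ℝ) / ((d : ℝ) + 1) < 1 := by
      rw [div_lt_one (by positivity)]
      linarith
    nlinarith
  obtain ⟨x, hxE, hsep⟩ := rmz_nodes d E δ hδ h1
  have h3 := rmz_nodes_coeff d p hp x δ 1 M hδ hsep (fun i => by
    have := hE (hxE i)
    rw [abs_le]
    constructor <;> linarith [this.1, this.2]) (fun i => hM _ (hxE i))
  have e : (1 + 1) / δ = 4 * ((d : ℝ) + 1) / θ := by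
    rw [hδdef]
    field_simp
    ring
  rw [e] at h3
  exact h3

/-! ## 4. Intervals  (L-252-RMZ-INT) -/

theorem rmz_aff_eval (a b : ℝ) (p : ℝ[X]) (s : ℝ) : (rmzAff a b p).eval s = p.eval (a + (b - a) * s) := by
  simp [rmzAff]

theorem rmz_aff_natDegree (a b : ℝ) (p : ℝ[X]) (d : ℕ) (hp : p.natDegree ≤ d) : (rmzAff a b p).natDegree ≤ d := by
  unfold rmzAff
  refine natDegree_comp_le.trans ?_
  have h1 : (C a + C (b - a) * X : ℝ[X]).natDegree ≤ 1 := by
    rw [add_comm]
    exact natDegree_linear_le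
  calc p.natDegree * (C a + C (b - a) * X : ℝ[X]).natDegree ≤ p.natDegree * 1 := Nat.mul_le_mul_left _ h1
    _ ≤ d := by rw [mul_one]; exact hp

/-- chain rule -/
theorem rmz_aff_derivative (a b : ℝ) (p : ℝ[X]) : derivative (rmzAff a b p) = C (b - a) * rmzAff a b (derivative p) := by
  unfold rmzAff
  rw [derivative_comp]
  simp

/-- **REMEZ on an interval.**   PLAN: `rmz_one` for `rmzAff a b p` and `E' = (fun s => a + (b - a) s) ⁻¹' E`; `volume E = ofReal (b - a) * volume E'` (`Real.volume_preimage_mul_left`, `measure_preimage_add`; valid for every set). -/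
theorem rmz_interval (d : ℕ) (p : ℝ[X]) (hp : p.natDegree ≤ d) (a b θ M : ℝ) (hab : a < b) (hθ : 0 < θ) (E : Set ℝ)
    (hE : E ⊆ Set.Icc a b) (hvol : ENNReal.ofReal (θ * (b - a)) ≤ volume E) (hM : ∀ x ∈ E, |p.eval x| ≤ M) :
    rmzN (rmzAff a b p) ≤ rmzC d θ * M := by
  have hba : 0 < b - a := sub_pos.2 hab
  set E' : Set ℝ := (fun s => (b - a) * s) ⁻¹' ((fun y => a + y) ⁻¹' E) with hE'
  have hv : volume E' = ENNReal.ofReal |(b - a)⁻¹| * volume E := by
    rw [hE', Real.volume_preimage_mul_left hba.ne', measure_preimage_add]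
  refine rmz_one d _ (rmz_aff_natDegree a b p d hp) θ M hθ E' ?_ ?_ ?_
  · intro s hs
    have h1 : a + (b - a) * s ∈ E := hs
    have h2 := hE h1
    constructor
    · by_contra hneg
      push Not at hneg
      have := h2.1
      nlinarith
    · by_contra hgt
      push Not at hgt
      have := h2.2
      nlinarith
  · rw [hv, abs_of_pos (inv_pos.2 hba)]
    calc ENNReal.ofReal θ = ENNReal.ofReal (b - a)⁻¹ * ENNReal.ofReal (θ * (b - a)) := by
          rw [← ENNReal.ofReal_mul (inv_pos.2 hba).le]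
          congr 1
          field_simp
      _ ≤ _ := mul_le_mul' le_rfl hvol
  · intro s hs
    rw [rmz_aff_eval]
    exact hM _ hs

theorem rmz_aff_iter_derivative (a b : ℝ) (p : ℝ[X]) (k : ℕ) :
    derivative^[k] (rmzAff a b p) = C ((b - a) ^ k) * rmzAff a b (derivative^[k] p) := by
  induction k generalizing p with
  | zero => simp
  | succ k ih =>
    rw [Function.iterate_succ_apply, rmz_aff_derivative, Polynomial.iterate_derivative_C_mul, ih, Function.iterate_succ_apply,
      ← mul_assoc, ← C_mul, pow_succ']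

/-- from the normalised coefficient norm to the values of all derivatives on real enlargements -/
theorem rmz_interval_eval (d : ℕ) (p : ℝ[X]) (hp : p.natDegree ≤ d) (a b : ℝ) (hab : a < b) (k : ℕ) (lam x : ℝ) (hlam : 1 ≤ lam)
    (hx : |x - a| ≤ lam * (b - a)) :
    |(derivative^[k] p).eval x| ≤ (d : ℝ) ^ k * rmzN (rmzAff a b p) * lam ^ d / (b - a) ^ k := by
  have hba : 0 < b - a := sub_pos.2 hab
  set q := rmzAff a b p with hq
  have hqd : q.natDegree ≤ d := rmz_aff_natDegree a b p d hp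
  set s : ℝ := (x - a) / (b - a) with hs
  have hs1 : |s| ≤ lam := by
    rw [hs, abs_div, abs_of_pos hba, div_le_iff₀ hba]
    exact hx
  have hd2 : (derivative^[k] q).natDegree ≤ d := (natDegree_iterate_derivative q k).trans ((Nat.sub_le _ _).trans hqd)
  have h1 := rmz_eval_le (derivative^[k] q) d hd2 lam s hlam hs1
  have h2 := rmz_N_iter_derivative q d hqd k
  have e : (derivative^[k] q).eval s = (b - a) ^ k * (derivative^[k] p).eval x := by
    rw [hq, rmz_aff_iter_derivative, eval_mul, eval_C, rmz_aff_eval]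
    congr 2
    rw [hs]
    field_simp
    ring
  rw [e, abs_mul, abs_of_pos (pow_pos hba k)] at h1
  rw [le_div_iff₀ (pow_pos hba k), mul_comm]
  exact h1.trans (mul_le_mul_of_nonneg_right h2 (by positivity))

/-- the same on complex enlargements -/
theorem rmz_interval_aeval (d : ℕ) (p : ℝ[X]) (hp : p.natDegree ≤ d) (a b : ℝ) (hab : a < b) (k : ℕ) (lam : ℝ) (z : ℂ) (hlam : 1 ≤ lam)
    (hz : ‖z - (a : ℂ)‖ ≤ lam * (b - a)) :
    ‖aeval z (derivative^[k] p)‖ ≤ (d : ℝ) ^ k * rmzN (rmzAff a b p) * lam ^ d / (b - a) ^ k := by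
  have hba : 0 < b - a := sub_pos.2 hab
  set q := rmzAff a b p with hq
  have hqd : q.natDegree ≤ d := rmz_aff_natDegree a b p d hp
  have hbaC : ((b - a : ℝ) : ℂ) ≠ 0 := by exact_mod_cast hba.ne'
  set s : ℂ := (z - a) / ((b - a : ℝ) : ℂ) with hs
  have hs1 : ‖s‖ ≤ lam := by
    rw [hs, norm_div, Complex.norm_real, Real.norm_of_nonneg hba.le, div_le_iff₀ hba]
    exact hz
  have hd2 : (derivative^[k] q).natDegree ≤ d := (natDegree_iterate_derivative q k).trans ((Nat.sub_le _ _).trans hqd)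
  have h1 := rmz_aeval_le (derivative^[k] q) d hd2 lam s hlam hs1
  have h2 := rmz_N_iter_derivative q d hqd k
  have e : aeval s (derivative^[k] q) = (((b - a) ^ k : ℝ) : ℂ) * aeval z (derivative^[k] p) := by
    rw [hq, rmz_aff_iter_derivative, map_mul, aeval_C]
    congr 1
    unfold rmzAff
    rw [aeval_comp]
    congr 1
    simp only [map_add, map_mul, aeval_C, aeval_X, Complex.coe_algebraMap]
    rw [hs, mul_div_cancel₀ _ hbaC, add_sub_cancel]
  rw [e, norm_mul, Complex.norm_real, Real.norm_of_nonneg (pow_pos hba k).le] at h1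
  rw [le_div_iff₀ (pow_pos hba k), mul_comm]
  exact h1.trans (mul_le_mul_of_nonneg_right h2 (by positivity))

/-- **sublevel sets of a polynomial which is not small somewhere** (contrapositive of Remez):  if `|p(x₀)| ≥ S > 0` for one `x₀ ∈ [a,b]`, then `{x ∈ [a,b] : |p x| ≤ η S}` has measure `≤ θ (b - a)` as soon as `rmzC d θ * η < 1`. -/
theorem rmz_sublevel (d : ℕ) (p : ℝ[X]) (hp : p.natDegree ≤ d) (a b θ η S : ℝ) (hab : a < b) (hθ : 0 < θ) (hS : 0 < S) (hη : 0 ≤ η)
    (hsm : rmzC d θ * η < 1) (x₀ : ℝ) (hx₀ : x₀ ∈ Set.Icc a b) (hp₀ : S ≤ |p.eval x₀|) :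
    volume {x | x ∈ Set.Icc a b ∧ |p.eval x| ≤ η * S} ≤ ENNReal.ofReal (θ * (b - a)) := by
  by_contra hlt
  push Not at hlt
  have hba : 0 < b - a := sub_pos.2 hab
  have h1 := rmz_interval d p hp a b θ (η * S) hab hθ {x | x ∈ Set.Icc a b ∧ |p.eval x| ≤ η * S} (fun x hx => hx.1) hlt.le
    (fun x hx => hx.2)
  have h2 := rmz_interval_eval d p hp a b hab 0 1 x₀ le_rfl (by
    rw [one_mul, abs_of_nonneg (by linarith [hx₀.1])]
    linarith [hx₀.2])
  simp only [Function.iterate_zero, id_eq, pow_zero, one_mul, one_pow, mul_one, div_one] at h2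
  have h3 : rmzC d θ * (η * S) < S := by
    rw [← mul_assoc]
    nlinarith
  linarith

end Claimed.Agent.R252
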