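-- KEEP
import Claimed.Agent.R252.Remez.One

/-!
# ROW 252, BOX 6a: THE POLYNOMIAL KIT, SEVERAL VARIABLES.   CLOSED, all proved      (architect helper78; prefix `rmz_`)

PAPER-FREE, Mathlib only.   STATEMENTS ARE FROZEN (defects: message to helper78).   All leaves proved 18:46Z (helpers 173, 35, 259, 158, 41, 78).
Polynomials: `P : MvPolynomial (Fin n) ℝ` with `P.degreeOf i ≤ d` for every variable (implied by `P.totalDegree ≤ d` : `rmz_degreeOf_le`).   Boxes: `Set.Icc a b ⊆ Fin n → ℝ`.   `E` is ANY subset of the box (outer measure).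
LEAVES:  L-252-RMZ-NM (s1),  L-252-RMZ-SLICE (s2),  L-252-RMZ-MV (s3),  L-252-RMZ-BOX (s4),  L-252-RMZ-LINE (s5).
-/

set_option autoImplicit false

namespace Claimed.Agent.R252

open MeasureTheory

/-! ## 1. The coefficient norm  (L-252-RMZ-NM) -/

theorem rmz_Nm_nonneg {σ : Type} (P : MvPolynomial σ ℝ) : 0 ≤ rmzNm P := Finset.sum_nonneg fun _ _ => abs_nonneg _

theorem rmz_degreeOf_le {σ : Type} (P : MvPolynomial σ ℝ) (d : ℕ) (h : P.totalDegree ≤ d) (i : σ) : P.degreeOf i ≤ d :=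
  (MvPolynomial.degreeOf_le_totalDegree P i).trans h

theorem rmz_coeff_le_Nm {σ : Type} (P : MvPolynomial σ ℝ) (m : σ →₀ ℕ) : |P.coeff m| ≤ rmzNm P := by
  by_cases hm : m ∈ P.support
  · exact Finset.single_le_sum (f := fun m => |P.coeff m|) (fun _ _ => abs_nonneg _) hm
  · rw [MvPolynomial.notMem_support_iff.1 hm, abs_zero]
    exact Finset.sum_nonneg fun _ _ => abs_nonneg _

/-- a polynomial without variables -/
theorem rmz_Nm_zero (P : MvPolynomial (Fin 0) ℝ) (x : Fin 0 → ℝ) : rmzNm P = |MvPolynomial.eval x P| := by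
  rw [MvPolynomial.eval_eq']
  unfold rmzNm
  simp only [Finset.univ_eq_empty, Finset.prod_empty, mul_one]
  have hsub : P.support ⊆ {0} := by
    intro m _
    rw [Finset.mem_singleton]
    exact Subsingleton.elim _ _
  rw [Finset.sum_subset hsub (fun m _ hm => by rw [MvPolynomial.notMem_support_iff.1 hm, abs_zero]),
    Finset.sum_subset hsub (fun m _ hm => MvPolynomial.notMem_support_iff.1 hm)]
  simp

/-- **the norm is the sum of the norms of the coefficients with respect to the first variable.**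
PLAN: `MvPolynomial.finSuccEquiv_coeff_coeff`: `coeff m (coeff k (finSuccEquiv f)) = coeff (m.cons k) f`; the map `(k, m) ↦ m.cons k` is a bijection (`Finsupp.cons`, `Finsupp.cons_tail`); `Finset.sum_sigma'`/`Finset.sum_bij'`;
`k ≤ d` on the support by `MvPolynomial.natDegree_finSuccEquiv`. -/
theorem rmz_Nm_succ (n d : ℕ) (P : MvPolynomial (Fin (n + 1)) ℝ) (hP : P.degreeOf 0 ≤ d) :
    rmzNm P = ∑ k ∈ Finset.range (d + 1), rmzNm ((MvPolynomial.finSuccEquiv ℝ n P).coeff k) := by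
  classical
  unfold rmzNm
  have h1 : ∀ k, ∑ m ∈ ((MvPolynomial.finSuccEquiv ℝ n P).coeff k).support, |((MvPolynomial.finSuccEquiv ℝ n P).coeff k).coeff m|
      = ∑ m ∈ P.support with m 0 = k, |P.coeff m| := by
    intro k
    rw [← MvPolynomial.image_support_finSuccEquiv, Finset.sum_image (fun a _ b _ h => Finsupp.cons_right_injective k h)]
    exact Finset.sum_congr rfl fun m _ => by rw [MvPolynomial.finSuccEquiv_coeff_coeff]
  simp only [h1]
  rw [Finset.sum_fiberwise_of_maps_to]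
  intro m hm
  rw [Finset.mem_range]
  exact Nat.lt_succ_of_le ((MvPolynomial.monomial_le_degreeOf 0 hm).trans hP)

theorem rmz_prod_pow_le {n d : ℕ} (m : Fin n →₀ ℕ) (hm : ∀ i, m i ≤ d) (L : ℝ) (hL : 1 ≤ L) (r : Fin n → ℝ) (h0 : ∀ i, 0 ≤ r i)
    (hr : ∀ i, r i ≤ L) : ∏ i, r i ^ m i ≤ L ^ (n * d) := by
  calc ∏ i, r i ^ m i ≤ ∏ _i : Fin n, L ^ d := by
        refine Finset.prod_le_prod (fun i _ => pow_nonneg (h0 i) _) fun i _ => ?_
        exact (pow_le_pow_left₀ (h0 i) (hr i) _).trans (pow_le_pow_right₀ hL (hm i))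
    _ = L ^ (n * d) := by
        rw [Finset.prod_const, Finset.card_univ, Fintype.card_fin, ← pow_mul, mul_comm]

/-- values on real enlargements -/
theorem rmz_mv_eval_le (n d : ℕ) (P : MvPolynomial (Fin n) ℝ) (hP : ∀ i, P.degreeOf i ≤ d) (L : ℝ) (hL : 1 ≤ L) (x : Fin n → ℝ)
    (hx : ∀ i, |x i| ≤ L) : |MvPolynomial.eval x P| ≤ rmzNm P * L ^ (n * d) := by
  rw [MvPolynomial.eval_eq']
  unfold rmzNm
  rw [Finset.sum_mul]
  refine (Finset.abs_sum_le_sum_abs _ _).trans (Finset.sum_le_sum fun m hm => ?_)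
  rw [abs_mul, Finset.abs_prod]
  refine mul_le_mul_of_nonneg_left ?_ (abs_nonneg _)
  simp only [abs_pow]
  exact rmz_prod_pow_le m (fun i => (MvPolynomial.monomial_le_degreeOf i hm).trans (hP i)) L hL _ (fun i => abs_nonneg _) hx

/-- values on complex enlargements -/
theorem rmz_mv_aeval_le (n d : ℕ) (P : MvPolynomial (Fin n) ℝ) (hP : ∀ i, P.degreeOf i ≤ d) (L : ℝ) (hL : 1 ≤ L) (z : Fin n → ℂ)
    (hz : ∀ i, ‖z i‖ ≤ L) : ‖MvPolynomial.aeval z P‖ ≤ rmzNm P * L ^ (n * d) := by
  rw [MvPolynomial.aeval_def, MvPolynomial.eval₂_eq']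
  unfold rmzNm
  rw [Finset.sum_mul]
  refine (norm_sum_le _ _).trans (Finset.sum_le_sum fun m hm => ?_)
  rw [norm_mul, norm_prod]
  have h1 : ‖(algebraMap ℝ ℂ) (P.coeff m)‖ = |P.coeff m| := by
    rw [Complex.coe_algebraMap, Complex.norm_real, Real.norm_eq_abs]
  rw [h1]
  refine mul_le_mul_of_nonneg_left ?_ (abs_nonneg _)
  simp only [norm_pow]
  exact rmz_prod_pow_le m (fun i => (MvPolynomial.monomial_le_degreeOf i hm).trans (hP i)) L hL _ (fun i => norm_nonneg _) hz

theorem rmz_pderiv_support {n : ℕ} (P : MvPolynomial (Fin n) ℝ) (i : Fin n) (m : Fin n →₀ ℕ) (hm : m ∈ (MvPolynomial.pderiv i P).support) :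
    m + Finsupp.single i 1 ∈ P.support := by
  rw [MvPolynomial.mem_support_iff, MvPolynomial.coeff_pderiv] at hm
  rw [MvPolynomial.mem_support_iff]
  exact left_ne_zero_of_mul hm

/-- `MvPolynomial.coeff_pderiv`-type computation: `|(m_i + 1) c_{m + e_i}| ≤ d |c_{m + e_i}|`, the map `m ↦ m + e_i` is injective -/
theorem rmz_Nm_pderiv (n d : ℕ) (P : MvPolynomial (Fin n) ℝ) (i : Fin n) (hP : P.degreeOf i ≤ d) :
    rmzNm (MvPolynomial.pderiv i P) ≤ d * rmzNm P := by
  classical
  unfold rmzNm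
  calc ∑ m ∈ (MvPolynomial.pderiv i P).support, |(MvPolynomial.pderiv i P).coeff m|
      ≤ ∑ m ∈ (MvPolynomial.pderiv i P).support, (d : ℝ) * |P.coeff (m + Finsupp.single i 1)| := by
        refine Finset.sum_le_sum fun m hm => ?_
        rw [MvPolynomial.coeff_pderiv, abs_mul, mul_comm]
        refine mul_le_mul_of_nonneg_right ?_ (abs_nonneg _)
        have h1 := (MvPolynomial.monomial_le_degreeOf i (rmz_pderiv_support P i m hm)).trans hP
        simp only [Finsupp.coe_add, Pi.add_apply, Finsupp.single_eq_same] at h1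
        rw [abs_of_nonneg (by positivity)]
        exact_mod_cast h1
    _ = (d : ℝ) * ∑ m ∈ (MvPolynomial.pderiv i P).support.image (fun m => m + Finsupp.single i 1), |P.coeff m| := by
        rw [Finset.sum_image (fun a _ b _ h => add_right_cancel h), Finset.mul_sum]
    _ ≤ (d : ℝ) * ∑ m ∈ P.support, |P.coeff m| := by
        refine mul_le_mul_of_nonneg_left ?_ (Nat.cast_nonneg _)
        refine Finset.sum_le_sum_of_subset_of_nonneg ?_ fun _ _ _ => abs_nonneg _
        intro m hm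
        obtain ⟨m', hm', rfl⟩ := Finset.mem_image.1 hm
        exact rmz_pderiv_support P i m' hm'

theorem rmz_degreeOf_pderiv (n : ℕ) (P : MvPolynomial (Fin n) ℝ) (i j : Fin n) : (MvPolynomial.pderiv i P).degreeOf j ≤ P.degreeOf j := by
  rw [MvPolynomial.degreeOf_le_iff]
  intro m hm
  have h1 := MvPolynomial.monomial_le_degreeOf j (rmz_pderiv_support P i m hm)
  simp only [Finsupp.coe_add, Pi.add_apply] at h1
  omega

/-! ## 2. Slicing  (L-252-RMZ-SLICE) -/

theorem rmz_slice_sec (n : ℕ) (E : Set (Fin (n + 1) → ℝ)) (y : Fin n → ℝ) :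
    (fun x : ℝ => (x, y)) ⁻¹' ((MeasurableEquiv.piFinSuccAbove (fun _ : Fin (n + 1) => ℝ) 0).symm ⁻¹' E)
      = {t : ℝ | (Fin.cons t y : Fin (n + 1) → ℝ) ∈ E} := by
  ext t
  have h2 : (MeasurableEquiv.piFinSuccAbove (fun _ : Fin (n + 1) => ℝ) 0).symm (t, y) = (Fin.cons t y : Fin (n + 1) → ℝ) := by
    show Fin.insertNth (α := fun _ : Fin (n + 1) => ℝ) 0 t y = _
    exact Fin.insertNth_zero' t y
  simp only [Set.mem_preimage, h2]
  rfl

theorem rmz_slice_vol (n : ℕ) (E : Set (Fin (n + 1) → ℝ)) (hEm : MeasurableSet E) :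
    volume E = ∫⁻ y : Fin n → ℝ, volume {t : ℝ | (Fin.cons t y : Fin (n + 1) → ℝ) ∈ E} := by
  have hmp := volume_preserving_piFinSuccAbove (fun _ : Fin (n + 1) => ℝ) 0
  have h1 : volume E = volume ((MeasurableEquiv.piFinSuccAbove (fun _ : Fin (n + 1) => ℝ) 0).symm ⁻¹' E) :=
    (hmp.symm.measure_preimage hEm.nullMeasurableSet).symm
  rw [h1, Measure.volume_eq_prod, Measure.prod_apply_symm ((MeasurableEquiv.measurable _) hEm)]
  refine lintegral_congr fun y => ?_
  rw [rmz_slice_sec]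

theorem rmz_slice_meas (n : ℕ) (E : Set (Fin (n + 1) → ℝ)) (hEm : MeasurableSet E) :
    Measurable fun y : Fin n → ℝ => volume {t : ℝ | (Fin.cons t y : Fin (n + 1) → ℝ) ∈ E} := by
  have h2 : MeasurableSet ((MeasurableEquiv.piFinSuccAbove (fun _ : Fin (n + 1) => ℝ) 0).symm ⁻¹' E) := (MeasurableEquiv.measurable _) hEm
  have h3 := measurable_measure_prodMk_right (μ := (volume : Measure ℝ)) h2
  simpa only [rmz_slice_sec] using h3

/-- **a measurable subset of measure `≥ θ` of the unit cube has many large sections.**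
PLAN: `volume_preserving_piFinSuccAbove (fun _ => ℝ) 0` + `Measure.prod_apply` : `volume E = ∫⁻ y, volume {t | Fin.cons t y ∈ E}` (use the symmetric form if more convenient: `Measure.prod_apply_symm`);
the sections are contained in `[0,1]`, they are empty for `y ∉ [0,1]^n`; `volume (Icc 0 1) = 1` in every dimension (`Real.volume_Icc_pi`);
split the integral over `G` (sections `≤ 1`) and the rest of the cube (sections `< θ/2`): `θ ≤ volume G + θ/2`.   Measurability of `G`: `measurable_measure_prodMk_left/right`. -/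
theorem rmz_slice (n : ℕ) (E : Set (Fin (n + 1) → ℝ)) (hEm : MeasurableSet E) (hE : E ⊆ Set.Icc 0 1) (θ : ℝ) (hθ : 0 < θ)
    (hvol : ENNReal.ofReal θ ≤ volume E) :
    ENNReal.ofReal (θ / 2) ≤ volume {y : Fin n → ℝ | y ∈ Set.Icc (0 : Fin n → ℝ) 1 ∧
      ENNReal.ofReal (θ / 2) ≤ volume {t : ℝ | (Fin.cons t y : Fin (n + 1) → ℝ) ∈ E}} := by
  have hFm := rmz_slice_meas n E hEm
  have hGm : MeasurableSet {y : Fin n → ℝ | y ∈ Set.Icc (0 : Fin n → ℝ) 1 ∧
      ENNReal.ofReal (θ / 2) ≤ volume {t : ℝ | (Fin.cons t y : Fin (n + 1) → ℝ) ∈ E}} :=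
    measurableSet_Icc.inter (hFm measurableSet_Ici)
  obtain ⟨G, hG⟩ : ∃ G : Set (Fin n → ℝ), G = {y : Fin n → ℝ | y ∈ Set.Icc (0 : Fin n → ℝ) 1 ∧
      ENNReal.ofReal (θ / 2) ≤ volume {t : ℝ | (Fin.cons t y : Fin (n + 1) → ℝ) ∈ E}} := ⟨_, rfl⟩
  rw [← hG] at hGm ⊢
  have hpt : ∀ y : Fin n → ℝ, volume {t : ℝ | (Fin.cons t y : Fin (n + 1) → ℝ) ∈ E}
      ≤ G.indicator (fun _ => (1 : ENNReal)) y + (Set.Icc (0 : Fin n → ℝ) 1).indicator (fun _ => ENNReal.ofReal (θ / 2)) y := by
    intro y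
    by_cases hy : y ∈ Set.Icc (0 : Fin n → ℝ) 1
    · by_cases hyG : y ∈ G
      · rw [Set.indicator_of_mem hyG]
        refine le_add_right ?_
        have hsub : {t : ℝ | (Fin.cons t y : Fin (n + 1) → ℝ) ∈ E} ⊆ Set.Icc 0 1 := by
          intro t ht
          have h1 := hE ht
          exact ⟨by simpa using h1.1 0, by simpa using h1.2 0⟩
        calc volume {t : ℝ | (Fin.cons t y : Fin (n + 1) → ℝ) ∈ E} ≤ volume (Set.Icc (0 : ℝ) 1) := measure_mono hsub
          _ = 1 := by simp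
      · rw [Set.indicator_of_notMem hyG, Set.indicator_of_mem hy, zero_add]
        by_contra hcon
        apply hyG
        rw [hG]
        exact ⟨hy, (not_le.1 hcon).le⟩
    · have hemp : {t : ℝ | (Fin.cons t y : Fin (n + 1) → ℝ) ∈ E} = ∅ := by
        ext t
        simp only [Set.mem_ofPred_eq, Set.mem_empty_iff_false, iff_false]
        intro ht
        apply hy
        have h1 := hE ht
        exact ⟨fun i => by simpa using h1.1 i.succ, fun i => by simpa using h1.2 i.succ⟩
      rw [hemp]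
      simp
  have hcube : volume (Set.Icc (0 : Fin n → ℝ) 1) = 1 := by
    rw [Real.volume_Icc_pi]
    simp
  have h3 : volume E ≤ volume G + ENNReal.ofReal (θ / 2) := by
    rw [rmz_slice_vol n E hEm]
    refine (lintegral_mono hpt).trans ?_
    rw [lintegral_add_left (measurable_const.indicator hGm), lintegral_indicator_const hGm, lintegral_indicator_const measurableSet_Icc,
      hcube, one_mul, mul_one]
  have h4 : ENNReal.ofReal θ = ENNReal.ofReal (θ / 2) + ENNReal.ofReal (θ / 2) := by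
    rw [← ENNReal.ofReal_add (by positivity) (by positivity)]
    congr 1
    ring
  rw [h4] at hvol
  exact (ENNReal.add_le_add_iff_right ENNReal.ofReal_ne_top).1 (hvol.trans h3)

/-! ## 3. Remez on the unit cube  (L-252-RMZ-MV) -/

theorem rmz_Cm_pos (n d : ℕ) (θ : ℝ) (hθ : 0 < θ) : 0 < rmzCm n d θ := by
  induction n generalizing θ with
  | zero => exact one_pos
  | succ n ih =>
    have h1 := ih (θ / 2) (by positivity)
    have h2 := rmz_C_pos d (θ / 2) (by positivity)
    show 0 < ((d : ℝ) + 1) * rmzC d (θ / 2) * rmzCm n d (θ / 2)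
    positivity

/-- closed form: `C(n,d) θ^(-n d)` -/
theorem rmz_Cm_le (n d : ℕ) (θ : ℝ) (hθ : 0 < θ) :
    rmzCm n d θ ≤ (((d : ℝ) + 1) ^ 2 * (8 * ((d : ℝ) + 1) * 2 ^ n) ^ d) ^ n * (θ⁻¹) ^ (n * d) := by
  induction n generalizing θ with
  | zero => simp [rmzCm]
  | succ n ih =>
    have ih' := ih (θ / 2) (by positivity)
    obtain ⟨a, ha⟩ : ∃ a : ℝ, a = ((d : ℝ) + 1) ^ 2 * (8 * ((d : ℝ) + 1)) ^ d := ⟨_, rfl⟩
    have ha0 : 0 < a := by rw [ha]; positivity
    have hb : ∀ k : ℕ, ((d : ℝ) + 1) ^ 2 * (8 * ((d : ℝ) + 1) * 2 ^ k) ^ d = a * (2 ^ k) ^ d := by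
      intro k
      rw [ha, mul_pow (8 * ((d : ℝ) + 1))]
      ring
    rw [hb] at ih' ⊢
    have h1 : rmzCm (n + 1) d θ = a * (θ⁻¹) ^ d * rmzCm n d (θ / 2) := by
      show ((d : ℝ) + 1) * rmzC d (θ / 2) * rmzCm n d (θ / 2) = _
      congr 1
      unfold rmzC
      rw [ha]
      have : 4 * ((d : ℝ) + 1) / (θ / 2) = 8 * ((d : ℝ) + 1) * θ⁻¹ := by
        field_simp
        ring
      rw [this, mul_pow (8 * ((d : ℝ) + 1))]
      ring
    rw [h1]
    have h2 : ((θ / 2)⁻¹) ^ (n * d) = (2 ^ d) ^ n * (θ⁻¹) ^ (n * d) := by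
      have : (θ / 2)⁻¹ = 2 * θ⁻¹ := by
        field_simp
      rw [this, mul_pow, ← pow_mul, mul_comm d n]
    rw [h2] at ih'
    have h3 : (1 : ℝ) ≤ (2 ^ (n + 1)) ^ d := one_le_pow₀ (one_le_pow₀ (by norm_num))
    have h4 : 0 < θ⁻¹ := by positivity
    calc a * (θ⁻¹) ^ d * rmzCm n d (θ / 2) ≤ a * (θ⁻¹) ^ d * ((a * (2 ^ n) ^ d) ^ n * ((2 ^ d) ^ n * (θ⁻¹) ^ (n * d))) :=
          mul_le_mul_of_nonneg_left ih' (by positivity)
      _ = (a * 1) * ((a * (2 ^ (n + 1)) ^ d) ^ n * (θ⁻¹) ^ ((n + 1) * d)) := by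
          have e1 : (a * (2 ^ (n + 1)) ^ d) ^ n = (a * (2 ^ n) ^ d) ^ n * (2 ^ d) ^ n := by
            rw [← mul_pow]
            congr 1
            rw [pow_succ, mul_pow]
            ring
          have e2 : (θ⁻¹) ^ ((n + 1) * d) = (θ⁻¹) ^ d * (θ⁻¹) ^ (n * d) := by
            rw [← pow_add]
            congr 1
            ring
          rw [e1, e2]
          ring
      _ ≤ (a * (2 ^ (n + 1)) ^ d) * ((a * (2 ^ (n + 1)) ^ d) ^ n * (θ⁻¹) ^ ((n + 1) * d)) :=
          mul_le_mul_of_nonneg_right (mul_le_mul_of_nonneg_left h3 ha0.le) (by positivity)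
      _ = _ := by
          rw [pow_succ (a * (2 ^ (n + 1)) ^ d) n]
          ring

/-- **REMEZ, `n` variables, measure form, coefficient norm.**
PLAN: WLOG `E = {x ∈ [0,1]^n : |P x| ≤ M}` (closed: `MvPolynomial.continuous_eval`; it contains the given set).   Induction on `n`.   `n = 0`: `E` is nonempty, `rmz_Nm_zero`.
Step: `G` from `rmz_slice`.   For `y ∈ G` the polynomial `p_y = (finSuccEquiv ℝ n P).map (eval y)` has degree `≤ d` (`MvPolynomial.natDegree_finSuccEquiv`, `Polynomial.natDegree_map_le`), `p_y.eval t = eval (Fin.cons t y) P`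
(`MvPolynomial.eval_eq_eval_mv_eval'`), so `rmz_one` gives `|eval y Q_k| = |p_y.coeff k| ≤ rmzC d (θ/2) M` for `Q_k = (finSuccEquiv ℝ n P).coeff k` (`rmz_coeff_le_N`, `Polynomial.coeff_map`).
Induction hypothesis for every `Q_k` (`MvPolynomial.degreeOf_coeff_finSuccEquiv`) on the set `G`; `rmz_Nm_succ`. -/
theorem rmz_mv (n d : ℕ) (P : MvPolynomial (Fin n) ℝ) (hP : ∀ i, P.degreeOf i ≤ d) (θ M : ℝ) (hθ : 0 < θ) (E : Set (Fin n → ℝ))
    (hE : E ⊆ Set.Icc 0 1) (hvol : ENNReal.ofReal θ ≤ volume E) (hM : ∀ x ∈ E, |MvPolynomial.eval x P| ≤ M) :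
    rmzNm P ≤ rmzCm n d θ * M := by
  induction n generalizing θ M with
  | zero =>
    have hne : E.Nonempty := by
      by_contra hcon
      rw [Set.not_nonempty_iff_eq_empty] at hcon
      rw [hcon, measure_empty] at hvol
      have : 0 < ENNReal.ofReal θ := ENNReal.ofReal_pos.2 hθ
      exact absurd hvol (not_le.2 this)
    obtain ⟨x, hx⟩ := hne
    rw [rmz_Nm_zero P x]
    show _ ≤ 1 * M
    rw [one_mul]
    exact hM x hx
  | succ n ih =>
    obtain ⟨E', hE'⟩ : ∃ E' : Set (Fin (n + 1) → ℝ), E' = Set.Icc 0 1 ∩ {x | |MvPolynomial.eval x P| ≤ M} := ⟨_, rfl⟩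
    have hcl : IsClosed E' := by
      rw [hE']
      exact isClosed_Icc.inter (isClosed_le (continuous_abs.comp (MvPolynomial.continuous_eval P)) continuous_const)
    have hsub : E ⊆ E' := fun x hx => by
      rw [hE']
      exact ⟨hE hx, hM x hx⟩
    have hE'c : E' ⊆ Set.Icc 0 1 := by
      rw [hE']
      exact Set.inter_subset_left
    have hG := rmz_slice n E' hcl.measurableSet hE'c θ hθ (hvol.trans (measure_mono hsub))
    have hθ2 : 0 < θ / 2 := by positivity
    have hQ : ∀ k : ℕ, rmzNm ((MvPolynomial.finSuccEquiv ℝ n P).coeff k) ≤ rmzCm n d (θ / 2) * (rmzC d (θ / 2) * M) := by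
      intro k
      refine ih _ (fun i => (MvPolynomial.degreeOf_coeff_finSuccEquiv P i k).trans (hP i.succ)) (θ / 2) _ hθ2 _ (fun y hy => hy.1) hG ?_
      intro y hy
      have hdeg : (Polynomial.map (MvPolynomial.eval y) (MvPolynomial.finSuccEquiv ℝ n P)).natDegree ≤ d :=
        (Polynomial.natDegree_map_le).trans ((MvPolynomial.natDegree_finSuccEquiv P).le.trans (hP 0))
      have h1 := rmz_one d (Polynomial.map (MvPolynomial.eval y) (MvPolynomial.finSuccEquiv ℝ n P)) hdeg (θ / 2) M hθ2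
        {t : ℝ | (Fin.cons t y : Fin (n + 1) → ℝ) ∈ E'} ?_ hy.2 ?_
      · have h2 := rmz_coeff_le_N (Polynomial.map (MvPolynomial.eval y) (MvPolynomial.finSuccEquiv ℝ n P)) k
        rw [Polynomial.coeff_map] at h2
        exact h2.trans h1
      · intro t ht
        have h3 := hE'c ht
        exact ⟨by simpa using h3.1 0, by simpa using h3.2 0⟩
      · intro t ht
        rw [← MvPolynomial.eval_eq_eval_mv_eval']
        have h3 : (Fin.cons t y : Fin (n + 1) → ℝ) ∈ E' := ht
        rw [hE'] at h3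
        exact h3.2
    rw [rmz_Nm_succ n d P (hP 0)]
    calc ∑ k ∈ Finset.range (d + 1), rmzNm ((MvPolynomial.finSuccEquiv ℝ n P).coeff k)
        ≤ ∑ _k ∈ Finset.range (d + 1), rmzCm n d (θ / 2) * (rmzC d (θ / 2) * M) := Finset.sum_le_sum fun k _ => hQ k
      _ = rmzCm (n + 1) d θ * M := by
          rw [Finset.sum_const, Finset.card_range, nsmul_eq_mul]
          show _ = ((d : ℝ) + 1) * rmzC d (θ / 2) * rmzCm n d (θ / 2) * M
          push_cast
          ring

/-! ## 4. Boxes  (L-252-RMZ-BOX) -/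

theorem rmz_affm_eval {n : ℕ} (a b : Fin n → ℝ) (P : MvPolynomial (Fin n) ℝ) (s : Fin n → ℝ) :
    MvPolynomial.eval s (rmzAffm a b P) = MvPolynomial.eval (fun i => a i + (b i - a i) * s i) P := by
  unfold rmzAffm
  rw [← MvPolynomial.aeval_eq_eval, ← MvPolynomial.aeval_eq_eval]
  rw [MvPolynomial.aeval_bind₁]
  simp

theorem rmz_affm_aeval {n : ℕ} (a b : Fin n → ℝ) (P : MvPolynomial (Fin n) ℝ) (s : Fin n → ℂ) :
    MvPolynomial.aeval s (rmzAffm a b P) = MvPolynomial.aeval (fun i => (a i : ℂ) + ((b i : ℂ) - (a i : ℂ)) * s i) P := by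
  unfold rmzAffm
  rw [MvPolynomial.aeval_bind₁]
  simp

theorem rmz_affm_degreeOf_gen {n : ℕ} (a b : Fin n → ℝ) (i j : Fin n) :
    (MvPolynomial.C (a j) + MvPolynomial.C (b j - a j) * MvPolynomial.X j : MvPolynomial (Fin n) ℝ).degreeOf i ≤ if i = j then 1 else 0 := by
  refine (MvPolynomial.degreeOf_add_le _ _ _).trans ?_
  rw [MvPolynomial.degreeOf_C, Nat.max_eq_right (Nat.zero_le _)]
  refine (MvPolynomial.degreeOf_C_mul_le _ _ _).trans ?_
  rw [MvPolynomial.degreeOf_X]

/-- the substitution is diagonal: the degree in every variable does not increase -/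
theorem rmz_affm_degreeOf {n : ℕ} (a b : Fin n → ℝ) (P : MvPolynomial (Fin n) ℝ) (i : Fin n) : (rmzAffm a b P).degreeOf i ≤ P.degreeOf i := by
  unfold rmzAffm
  conv_lhs => rw [← MvPolynomial.support_sum_monomial_coeff P, map_sum]
  refine (MvPolynomial.degreeOf_sum_le _ _ _).trans (Finset.sup_le fun m hm => ?_)
  rw [MvPolynomial.bind₁_monomial]
  refine (MvPolynomial.degreeOf_C_mul_le _ _ _).trans ((MvPolynomial.degreeOf_prod_le _ _ _).trans ?_)
  calc ∑ j ∈ m.support, ((MvPolynomial.C (a j) + MvPolynomial.C (b j - a j) * MvPolynomial.X j : MvPolynomial (Fin n) ℝ) ^ m j).degreeOf i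
      ≤ ∑ j ∈ m.support, m j * (if i = j then 1 else 0) := by
        refine Finset.sum_le_sum fun j _ => (MvPolynomial.degreeOf_pow_le _ _ _).trans ?_
        exact Nat.mul_le_mul_left _ (rmz_affm_degreeOf_gen a b i j)
    _ ≤ m i := by
        simp only [mul_ite, mul_one, mul_zero]
        rw [Finset.sum_ite_eq]
        split_ifs <;> omega
    _ ≤ P.degreeOf i := MvPolynomial.monomial_le_degreeOf i hm

/-- chain rule -/
theorem rmz_affm_pderiv {n : ℕ} (a b : Fin n → ℝ) (P : MvPolynomial (Fin n) ℝ) (i : Fin n) :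
    MvPolynomial.pderiv i (rmzAffm a b P) = MvPolynomial.C (b i - a i) * rmzAffm a b (MvPolynomial.pderiv i P) := by
  unfold rmzAffm
  induction P using MvPolynomial.induction_on with
  | C c => simp
  | add p q hp hq => simp only [map_add, hp, hq, mul_add]
  | mul_X p j hp =>
    simp only [map_mul, MvPolynomial.bind₁_X_right, MvPolynomial.pderiv_mul, hp, map_add, MvPolynomial.pderiv_C, MvPolynomial.pderiv_X,
      zero_add, zero_mul]
    by_cases hij : i = j
    · subst hij
      simp only [Pi.single_eq_same, mul_one, map_one]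
      ring
    · simp only [Pi.single_eq_of_ne (Ne.symm hij), mul_zero, add_zero, map_zero]
      ring

theorem rmz_box_vol {n : ℕ} (a b : Fin n → ℝ) (hab : ∀ i, a i < b i) (E : Set (Fin n → ℝ)) :
    volume E = volume (Set.Icc a b) * volume {s : Fin n → ℝ | (fun i => a i + (b i - a i) * s i) ∈ E} := by
  classical
  obtain ⟨D, hD⟩ : ∃ D : (Fin n → ℝ) →ₗ[ℝ] (Fin n → ℝ), D = Matrix.toLin' (Matrix.diagonal fun i => b i - a i) := ⟨_, rfl⟩
  have hDs : ∀ s : Fin n → ℝ, D s = fun i => (b i - a i) * s i := by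
    intro s
    rw [hD, Matrix.toLin'_apply]
    funext i
    rw [Matrix.mulVec_diagonal]
  have hpos : 0 < ∏ i, (b i - a i) := Finset.prod_pos fun i _ => sub_pos.2 (hab i)
  have hdet : LinearMap.det D = ∏ i, (b i - a i) := by
    rw [hD, LinearMap.det_toLin', Matrix.det_diagonal]
  have hset : {s : Fin n → ℝ | (fun i => a i + (b i - a i) * s i) ∈ E} = D ⁻¹' ((fun x => a + x) ⁻¹' E) := by
    ext s
    simp only [Set.mem_ofPred_eq, Set.mem_preimage, hDs]
    rfl
  rw [hset, Measure.addHaar_preimage_linearMap volume (by rw [hdet]; exact hpos.ne'), measure_preimage_add, hdet, Real.volume_Icc_pi,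
    ← ENNReal.ofReal_prod_of_nonneg (fun i _ => (sub_pos.2 (hab i)).le), ← mul_assoc, ← ENNReal.ofReal_mul hpos.le, abs_of_pos (inv_pos.2 hpos),
    mul_inv_cancel₀ hpos.ne', ENNReal.ofReal_one, one_mul]

/-- **REMEZ on a box.**   PLAN: `rmz_mv` for `rmzAffm a b P` and the preimage `E'` of `E` under `φ s = a + (b - a) s`;  `volume E = (∏ (b i - a i)) volume E'` for EVERY set:
`φ` is a homeomorphism, `Measure.map φ volume = (∏ (b i - a i))⁻¹ • volume` (`Real.map_linearMap_volume_pi_eq_smul_volume_pi` / `Real.volume_preserving_transvectionStruct`-free route: `MeasureTheory.volume_preserving_pi`-type product of the one dimensional maps, or `MeasureTheory.Measure.addHaar_preimage_linearMap` with the diagonal matrix `Matrix.diagonal`, `LinearMap.det`), `Real.volume_Icc_pi`. -/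
theorem rmz_box (n d : ℕ) (P : MvPolynomial (Fin n) ℝ) (hP : ∀ i, P.degreeOf i ≤ d) (a b : Fin n → ℝ) (hab : ∀ i, a i < b i) (θ M : ℝ)
    (hθ : 0 < θ) (E : Set (Fin n → ℝ)) (hE : E ⊆ Set.Icc a b) (hvol : ENNReal.ofReal θ * volume (Set.Icc a b) ≤ volume E)
    (hM : ∀ x ∈ E, |MvPolynomial.eval x P| ≤ M) : rmzNm (rmzAffm a b P) ≤ rmzCm n d θ * M := by
  refine rmz_mv n d (rmzAffm a b P) (fun i => (rmz_affm_degreeOf a b P i).trans (hP i)) θ M hθ
    {s : Fin n → ℝ | (fun i => a i + (b i - a i) * s i) ∈ E} ?_ ?_ ?_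
  · intro s hs
    have h1 := hE hs
    rw [Set.mem_Icc, Pi.le_def, Pi.le_def] at h1 ⊢
    refine ⟨fun i => ?_, fun i => ?_⟩
    · have h2 := h1.1 i
      have h3 := sub_pos.2 (hab i)
      simp only [Pi.zero_apply]
      by_contra hneg
      push Not at hneg
      have := mul_neg_of_pos_of_neg h3 hneg
      linarith
    · have h2 := h1.2 i
      have h3 := sub_pos.2 (hab i)
      simp only [Pi.one_apply]
      by_contra hneg
      push Not at hneg
      have := mul_lt_mul_of_pos_left hneg h3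
      linarith
  · rw [rmz_box_vol a b hab E, mul_comm] at hvol
    have hpos : 0 < ∏ i, (b i - a i) := Finset.prod_pos fun i _ => sub_pos.2 (hab i)
    have hv : volume (Set.Icc a b) = ENNReal.ofReal (∏ i, (b i - a i)) := by
      rw [Real.volume_Icc_pi, ENNReal.ofReal_prod_of_nonneg (fun i _ => (sub_pos.2 (hab i)).le)]
    exact (ENNReal.mul_le_mul_iff_right (by rw [hv]; exact (ENNReal.ofReal_pos.2 hpos).ne') (by rw [hv]; exact ENNReal.ofReal_ne_top)).1 hvol
  · intro s hs
    rw [rmz_affm_eval]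
    exact hM _ hs

theorem rmz_Nm_C_mul {σ : Type} (c : ℝ) (Q : MvPolynomial σ ℝ) : rmzNm (MvPolynomial.C c * Q) = |c| * rmzNm Q := by
  by_cases hc : c = 0
  · subst hc
    simp [rmzNm]
  · unfold rmzNm
    have hs : (MvPolynomial.C c * Q).support = Q.support := by
      ext m
      rw [MvPolynomial.mem_support_iff, MvPolynomial.mem_support_iff, MvPolynomial.coeff_C_mul]
      exact ⟨fun h => right_ne_zero_of_mul h, fun h => mul_ne_zero hc h⟩
    rw [hs, Finset.mul_sum]
    exact Finset.sum_congr rfl fun m _ => by rw [MvPolynomial.coeff_C_mul, abs_mul]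

/-- the normalised norm of a derivative -/
theorem rmz_box_pderiv (n d : ℕ) (P : MvPolynomial (Fin n) ℝ) (a b : Fin n → ℝ) (hab : ∀ i, a i < b i) (i : Fin n) (hP : P.degreeOf i ≤ d) :
    rmzNm (rmzAffm a b (MvPolynomial.pderiv i P)) ≤ d / (b i - a i) * rmzNm (rmzAffm a b P) := by
  have h1 := rmz_Nm_pderiv n d (rmzAffm a b P) i ((rmz_affm_degreeOf a b P i).trans hP)
  have h3 := sub_pos.2 (hab i)
  rw [rmz_affm_pderiv, rmz_Nm_C_mul, abs_of_pos h3] at h1
  rw [div_mul_eq_mul_div, le_div_iff₀ h3, mul_comm]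
  exact h1

/-- from the normalised norm to the values on real enlargements of the box -/
theorem rmz_box_eval (n d : ℕ) (P : MvPolynomial (Fin n) ℝ) (hP : ∀ i, P.degreeOf i ≤ d) (a b : Fin n → ℝ) (hab : ∀ i, a i < b i) (lam : ℝ)
    (hlam : 1 ≤ lam) (x : Fin n → ℝ) (hx : ∀ i, |x i - a i| ≤ lam * (b i - a i)) :
    |MvPolynomial.eval x P| ≤ rmzNm (rmzAffm a b P) * lam ^ (n * d) := by
  have h1 := rmz_mv_eval_le n d (rmzAffm a b P) (fun i => (rmz_affm_degreeOf a b P i).trans (hP i)) lam hlam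
    (fun i => (x i - a i) / (b i - a i)) (fun i => by
      have h3 := sub_pos.2 (hab i)
      rw [abs_div, abs_of_pos h3, div_le_iff₀ h3]
      exact hx i)
  rw [rmz_affm_eval] at h1
  have h2 : (fun i => a i + (b i - a i) * ((x i - a i) / (b i - a i))) = x := by
    funext i
    have h3 := (sub_pos.2 (hab i)).ne'
    field_simp
    ring
  rwa [h2] at h1

/-- the same on complex enlargements -/
theorem rmz_box_aeval (n d : ℕ) (P : MvPolynomial (Fin n) ℝ) (hP : ∀ i, P.degreeOf i ≤ d) (a b : Fin n → ℝ) (hab : ∀ i, a i < b i) (lam : ℝ)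
    (hlam : 1 ≤ lam) (z : Fin n → ℂ) (hz : ∀ i, ‖z i - (a i : ℂ)‖ ≤ lam * (b i - a i)) :
    ‖MvPolynomial.aeval z P‖ ≤ rmzNm (rmzAffm a b P) * lam ^ (n * d) := by
  have h1 := rmz_mv_aeval_le n d (rmzAffm a b P) (fun i => (rmz_affm_degreeOf a b P i).trans (hP i)) lam hlam
    (fun i => (z i - (a i : ℂ)) / ((b i - a i : ℝ) : ℂ)) (fun i => by
      have h3 := sub_pos.2 (hab i)
      rw [norm_div, Complex.norm_real, Real.norm_eq_abs, abs_of_pos h3, div_le_iff₀ h3]
      exact hz i)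
  rw [rmz_affm_aeval] at h1
  have h2 : (fun i => (a i : ℂ) + ((b i : ℂ) - (a i : ℂ)) * ((z i - (a i : ℂ)) / ((b i - a i : ℝ) : ℂ))) = z := by
    funext i
    have h3 : ((b i : ℂ) - (a i : ℂ)) ≠ 0 := by
      have := (sub_pos.2 (hab i)).ne'
      exact_mod_cast this
    push_cast
    field_simp
    ring
  rwa [h2] at h1

/-! ## 5. Restriction to lines  (L-252-RMZ-LINE) -/

/-- substitution of polynomials in one variable: degree and values -/
theorem rmz_line_aux (n : ℕ) (P : MvPolynomial (Fin n) ℝ) (f : Fin n → Polynomial ℝ) (w : Fin n → ℕ) (hw : ∀ j, (f j).natDegree ≤ w j)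
    (D : ℕ) (hD : ∀ m ∈ P.support, ∑ j, m j * w j ≤ D) :
    (MvPolynomial.aeval f P).natDegree ≤ D ∧ ∀ t, MvPolynomial.eval (fun j => (f j).eval t) P = (MvPolynomial.aeval f P).eval t := by
  have e : MvPolynomial.aeval f P = ∑ m ∈ P.support, Polynomial.C (P.coeff m) * ∏ j, f j ^ m j := by
    rw [MvPolynomial.aeval_def, MvPolynomial.eval₂_eq']
    rfl
  refine ⟨?_, fun t => ?_⟩
  · rw [e]
    refine Polynomial.natDegree_sum_le_of_forall_le _ _ fun m hm => ?_
    refine (Polynomial.natDegree_C_mul_le _ _).trans ?_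
    refine (Polynomial.natDegree_prod_le _ _).trans ?_
    refine le_trans (Finset.sum_le_sum fun j _ => ?_) (hD m hm)
    exact (Polynomial.natDegree_pow_le).trans (Nat.mul_le_mul_left _ (hw j))
  · rw [e, MvPolynomial.eval_eq', Polynomial.eval_finsetSum]
    refine Finset.sum_congr rfl fun m _ => ?_
    rw [Polynomial.eval_mul, Polynomial.eval_C, Polynomial.eval_prod]
    simp only [Polynomial.eval_pow]

/-- axis-parallel lines -/
theorem rmz_line_axis (n : ℕ) (P : MvPolynomial (Fin n) ℝ) (i : Fin n) (x : Fin n → ℝ) :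
    ∃ p : Polynomial ℝ, p.natDegree ≤ P.degreeOf i ∧ ∀ t, MvPolynomial.eval (Function.update x i t) P = p.eval t := by
  obtain ⟨h1, h2⟩ := rmz_line_aux n P (fun j => if j = i then Polynomial.X else Polynomial.C (x j)) (fun j => if j = i then 1 else 0)
    (fun j => by
      by_cases hj : j = i
      · simp [hj]
      · simp [hj]) (P.degreeOf i) (fun m hm => by
      have : ∑ j, m j * (if j = i then 1 else 0) = m i := by simp
      rw [this]
      exact MvPolynomial.monomial_le_degreeOf i hm)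
  refine ⟨_, h1, fun t => ?_⟩
  rw [← h2 t]
  congr 2
  funext j
  by_cases hj : j = i
  · subst hj
    simp
  · simp [hj]

/-- all lines -/
theorem rmz_line (n : ℕ) (P : MvPolynomial (Fin n) ℝ) (x v : Fin n → ℝ) :
    ∃ p : Polynomial ℝ, p.natDegree ≤ P.totalDegree ∧ ∀ t, MvPolynomial.eval (fun i => x i + t * v i) P = p.eval t := by
  obtain ⟨h1, h2⟩ := rmz_line_aux n P (fun j => Polynomial.C (x j) + Polynomial.X * Polynomial.C (v j)) (fun _ => 1)
    (fun j => by
      refine (Polynomial.natDegree_add_le _ _).trans (max_le (by simp) ?_)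
      exact (Polynomial.natDegree_mul_C_le _ _).trans Polynomial.natDegree_X_le) P.totalDegree (fun m hm => by
      have := MvPolynomial.le_totalDegree hm
      rw [Finsupp.sum_fintype _ _ (fun _ => rfl)] at this
      simpa using this)
  refine ⟨_, h1, fun t => ?_⟩
  rw [← h2 t]
  congr 2
  funext j
  simp only [Polynomial.eval_add, Polynomial.eval_mul, Polynomial.eval_C, Polynomial.eval_X]

end Claimed.Agent.R252
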