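-- KEEP
import Claimed.Agent.R252.Remez.Mv

/-!
# ROW 252, BOX 6a: THE POLYNOMIAL KIT, CLASS-FREE TOOLS      (architect + prover helper78; prefix `rmz_`; asked for by helper169, BP-252-SHEET)

No `sorry` in this file (it cites `rmz_nodes`, `rmz_slice` of the kit).
* `rmz_nodes_int`       `E ⊆ ℝ` ANY set with `volume E ≥ θ (b - a)`: `k + 1` points of `E` with gaps `≥ θ (b - a) / (2 (k + 1))`
* `rmz_lagrange_formula`, `rmz_lagrange_eval`, `rmz_lagrange_aeval`   SCALE INVARIANT Lagrange bound at real / complex points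
* `rmz_slicing`         a measurable function on the unit cube which satisfies a Remez inequality with constant `A θ` on every axis-parallel segment satisfies it on the cube with the constant `∏_{j<n} A (θ / 2^(j+1))`
-/

set_option autoImplicit false

namespace Claimed.Agent.R252

open MeasureTheory Polynomial

theorem rmz_nodes_int (k : ℕ) (E : Set ℝ) (a b θ : ℝ) (hab : a < b) (hθ : 0 < θ) (hvol : ENNReal.ofReal (θ * (b - a)) ≤ volume E) :
    ∃ x : Fin (k + 1) → ℝ, (∀ i, x i ∈ E) ∧ ∀ i j, i ≠ j → θ * (b - a) / (2 * ((k : ℝ) + 1)) ≤ |x i - x j| := by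
  have hpos : 0 < θ * (b - a) := mul_pos hθ (by linarith)
  refine rmz_nodes k E _ (by positivity) (lt_of_lt_of_le ?_ hvol)
  rw [ENNReal.ofReal_lt_ofReal_iff hpos]
  have e : 2 * (θ * (b - a) / (2 * ((k : ℝ) + 1))) * k = θ * (b - a) * (k / ((k : ℝ) + 1)) := by
    field_simp
  rw [e]
  have h1 : (k : ℝ) / ((k : ℝ) + 1) < 1 := by
    rw [div_lt_one (by positivity)]
    linarith
  nlinarith

/-- the interpolation formula -/
theorem rmz_lagrange_formula (k : ℕ) (q : ℝ[X]) (hq : q.natDegree ≤ k) (x : Fin (k + 1) → ℝ) (hinj : Function.Injective x) :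
    q = ∑ i, C (q.eval (x i)) * ∏ j ∈ Finset.univ.erase i, (C (x i - x j)⁻¹ * (X - C (x j))) := by
  have h := Lagrange.eq_interpolate_of_eval_eq (s := Finset.univ) (v := x) (r := fun i => q.eval (x i)) (f := q)
    (hinj.injOn) (by
      rw [Finset.card_univ, Fintype.card_fin]
      exact lt_of_le_of_lt degree_le_natDegree (by exact_mod_cast Nat.lt_succ_of_le hq)) (fun _ _ => rfl)
  rw [Lagrange.interpolate_apply] at h
  exact h

theorem rmz_sep_inj {k : ℕ} {x : Fin (k + 1) → ℝ} {s : ℝ} (hs : 0 < s) (hsep : ∀ i j, i ≠ j → s ≤ |x i - x j|) : Function.Injective x := by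
  intro i j hij
  by_contra hne
  have := hsep i j hne
  rw [hij, sub_self, abs_zero] at this
  linarith

theorem rmz_lagrange_aeval (k : ℕ) (q : ℝ[X]) (hq : q.natDegree ≤ k) (x : Fin (k + 1) → ℝ) (s l M : ℝ) (hs : 0 < s)
    (hsep : ∀ i j, i ≠ j → s ≤ |x i - x j|) (hl : ∀ i, |x i| ≤ l) (hM : ∀ i, |q.eval (x i)| ≤ M) (z : ℂ) :
    ‖aeval z q‖ ≤ ((k : ℝ) + 1) * ((‖z‖ + l) / s) ^ k * M := by
  have hl0 : 0 ≤ l := (abs_nonneg _).trans (hl 0)
  have hM0 : 0 ≤ M := (abs_nonneg _).trans (hM 0)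
  rw [rmz_lagrange_formula k q hq x (rmz_sep_inj hs hsep)]
  simp only [map_sum, map_mul, map_prod, aeval_C, map_sub, aeval_X]
  refine (norm_sum_le _ _).trans ?_
  have hterm : ∀ i : Fin (k + 1), ‖(algebraMap ℝ ℂ) (q.eval (x i)) * ∏ j ∈ Finset.univ.erase i,
      ((algebraMap ℝ ℂ) (x i - x j)⁻¹ * (z - (algebraMap ℝ ℂ) (x j)))‖ ≤ ((‖z‖ + l) / s) ^ k * M := by
    intro i
    rw [norm_mul, norm_prod, mul_comm]
    have h1 : ‖(algebraMap ℝ ℂ) (q.eval (x i))‖ ≤ M := by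
      rw [Complex.coe_algebraMap, Complex.norm_real, Real.norm_eq_abs]
      exact hM i
    have h2 : ∏ j ∈ Finset.univ.erase i, ‖(algebraMap ℝ ℂ) (x i - x j)⁻¹ * (z - (algebraMap ℝ ℂ) (x j))‖
        ≤ ∏ _j ∈ Finset.univ.erase i, ((‖z‖ + l) / s) := by
      refine Finset.prod_le_prod (fun _ _ => norm_nonneg _) fun j hj => ?_
      have hne : i ≠ j := (Finset.ne_of_mem_erase hj).symm
      rw [norm_mul, Complex.coe_algebraMap, Complex.norm_real, Real.norm_eq_abs, abs_inv, div_eq_inv_mul]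
      have h3 : ‖z - (x j : ℂ)‖ ≤ ‖z‖ + l := by
        refine (norm_sub_le _ _).trans ?_
        rw [Complex.norm_real, Real.norm_eq_abs]
        linarith [hl j]
      have h4 : |x i - x j|⁻¹ ≤ s⁻¹ := inv_anti₀ hs (hsep i j hne)
      exact mul_le_mul h4 h3 (norm_nonneg _) (by positivity)
    rw [Finset.prod_const, Finset.card_erase_of_mem (Finset.mem_univ _), Finset.card_univ, Fintype.card_fin, Nat.add_sub_cancel] at h2
    exact mul_le_mul h2 h1 (norm_nonneg _) (by positivity)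
  refine (Finset.sum_le_sum fun i _ => hterm i).trans ?_
  rw [Finset.sum_const, Finset.card_univ, Fintype.card_fin, nsmul_eq_mul]
  push_cast
  linarith [le_refl (((k : ℝ) + 1) * ((‖z‖ + l) / s) ^ k * M)]

theorem rmz_lagrange_eval (k : ℕ) (q : ℝ[X]) (hq : q.natDegree ≤ k) (x : Fin (k + 1) → ℝ) (s l M : ℝ) (hs : 0 < s)
    (hsep : ∀ i j, i ≠ j → s ≤ |x i - x j|) (hl : ∀ i, |x i| ≤ l) (hM : ∀ i, |q.eval (x i)| ≤ M) (t : ℝ) :
    |q.eval t| ≤ ((k : ℝ) + 1) * ((|t| + l) / s) ^ k * M := by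
  have h := rmz_lagrange_aeval k q hq x s l M hs hsep hl hM (t : ℂ)
  have e : aeval (t : ℂ) q = ((q.eval t : ℝ) : ℂ) := by
    rw [← Complex.coe_algebraMap, aeval_algebraMap_apply, Complex.coe_algebraMap]
    simp
  rw [e, Complex.norm_real, Complex.norm_real, Real.norm_eq_abs, Real.norm_eq_abs] at h
  exact h

theorem rmz_cons_mem_cube {n : ℕ} (t : ℝ) (y : Fin n → ℝ) :
    (Fin.cons t y : Fin (n + 1) → ℝ) ∈ Set.Icc (0 : Fin (n + 1) → ℝ) 1 ↔ t ∈ Set.Icc (0 : ℝ) 1 ∧ y ∈ Set.Icc (0 : Fin n → ℝ) 1 := by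
  simp only [Set.mem_Icc, Pi.le_def, Fin.forall_fin_succ, Fin.cons_zero, Fin.cons_succ, Pi.zero_apply, Pi.one_apply]
  tauto

theorem rmz_slicing (n : ℕ) (F : (Fin n → ℝ) → ℝ) (hF : Measurable F) (A : ℝ → ℝ)
    (hline : ∀ (i : Fin n) (x : Fin n → ℝ) (θ e : ℝ), x ∈ Set.Icc (0 : Fin n → ℝ) 1 → 0 < θ →
      ENNReal.ofReal θ ≤ volume {t : ℝ | t ∈ Set.Icc (0 : ℝ) 1 ∧ |F (Function.update x i t)| ≤ e} →
      ∀ t ∈ Set.Icc (0 : ℝ) 1, |F (Function.update x i t)| ≤ A θ * e)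
    (θ e : ℝ) (hθ : 0 < θ) (hvol : ENNReal.ofReal θ ≤ volume {x : Fin n → ℝ | x ∈ Set.Icc (0 : Fin n → ℝ) 1 ∧ |F x| ≤ e}) :
    ∀ x ∈ Set.Icc (0 : Fin n → ℝ) 1, |F x| ≤ (∏ j ∈ Finset.range n, A (θ / 2 ^ (j + 1))) * e := by
  induction n generalizing θ e with
  | zero =>
    intro x _
    have hne : {x : Fin 0 → ℝ | x ∈ Set.Icc (0 : Fin 0 → ℝ) 1 ∧ |F x| ≤ e}.Nonempty := by
      by_contra hcon
      rw [Set.not_nonempty_iff_eq_empty] at hcon
      rw [hcon, measure_empty, nonpos_iff_eq_zero, ENNReal.ofReal_eq_zero] at hvol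
      linarith
    obtain ⟨y, -, hy⟩ := hne
    rw [Subsingleton.elim x y]
    simpa using hy
  | succ n ih =>
    intro x hx
    have hEm : MeasurableSet {x : Fin (n + 1) → ℝ | x ∈ Set.Icc (0 : Fin (n + 1) → ℝ) 1 ∧ |F x| ≤ e} :=
      measurableSet_Icc.inter (measurableSet_le hF.abs measurable_const)
    have hG := rmz_slice n _ hEm (fun x hx => hx.1) θ hθ hvol
    -- the point
    obtain ⟨t, y, rfl⟩ : ∃ (t : ℝ) (y : Fin n → ℝ), x = Fin.cons t y := ⟨x 0, Fin.tail x, (Fin.cons_self_tail x).symm⟩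
    obtain ⟨ht, hy⟩ := (rmz_cons_mem_cube t y).1 hx
    have hmeas : Measurable fun y : Fin n → ℝ => F (Fin.cons t y) := by
      refine hF.comp ?_
      rw [measurable_pi_iff]
      intro i
      refine Fin.cases ?_ (fun j => ?_) i
      · simp
      · simpa using measurable_pi_apply j
    have key := ih (fun y => F (Fin.cons t y)) hmeas (by
      intro i z θ' e' hz hθ' hv s hs
      have h := hline i.succ (Fin.cons t z) θ' e' ((rmz_cons_mem_cube t z).2 ⟨ht, hz⟩) hθ' (by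
        simpa only [Fin.cons_update] using hv) s hs
      simpa only [Fin.cons_update] using h) (θ / 2) (A (θ / 2) * e) (by positivity) (by
      refine hG.trans (measure_mono ?_)
      rintro z ⟨hz, hzv⟩
      refine ⟨hz, ?_⟩
      have h := hline 0 (Fin.cons 0 z) (θ / 2) e ((rmz_cons_mem_cube 0 z).2 ⟨⟨le_rfl, zero_le_one⟩, hz⟩) (by positivity) (by
        refine hzv.trans (measure_mono ?_)
        intro s hs
        have hs' : (Fin.cons s z : Fin (n + 1) → ℝ) ∈ Set.Icc (0 : Fin (n + 1) → ℝ) 1 ∧ |F (Fin.cons s z)| ≤ e := hs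
        refine ⟨((rmz_cons_mem_cube s z).1 hs'.1).1, ?_⟩
        rw [Fin.update_cons_zero]
        exact hs'.2) t ht
      rw [Fin.update_cons_zero] at h
      exact h) y hy
    refine key.trans (le_of_eq ?_)
    rw [Finset.prod_range_succ' (fun j => A (θ / 2 ^ (j + 1)))]
    have e1 : ∀ j : ℕ, θ / 2 / 2 ^ (j + 1) = θ / 2 ^ (j + 1 + 1) := by
      intro j
      rw [pow_succ 2 (j + 1)]
      field_simp
    simp only [e1, zero_add, pow_one]
    ring

end Claimed.Agent.R252
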